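import Vale.Agent.P218WA.Props
import Vale.Agent.P218UM.Main

/-! The error terms of the weighted estimate, for weak flows. -/

open MeasureTheory Set Filter Topology Metric
open scoped ENNReal NNReal RealInnerProductSpace ContDiff

namespace Vale.Agent.P218WM

open Vale.Agent.P218UA Vale.Agent.P218UD Vale.Agent.P218UM Vale.Agent.P218WA
open Vale.Agent.P218.H63 (lap hessSq)

variable {w : ℝ → E3 → ℝ} {e : E3 → ℝ} {δ Λ a₀ k₁ k₂ k₃ A ε ρ r₀ t : ℝ} {I Z : Set ℝ}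

lemma resc_one (w : ℝ → E3 → ℝ) : resc w 1 = w := by
  ext t x
  simp [resc]

lemma zs_one (Z : Set ℝ) : zs Z 1 = Z := by
  ext t
  simp [zs]

lemma _root_.Vale.Agent.P218WA.DefLe.mono {B : Set E3} {a b a' b' c : ℝ} (h : DefLe w Z B a b c)
    (ha : a ≤ a') (hb : b' ≤ b) : DefLe w Z B a' b' c := fun f h1 h2 h3 s hs t ht =>
  h f h1 h2 h3 s ⟨Icc_subset_Icc ha hb hs.1, hs.2⟩ t ⟨Icc_subset_Icc ha hb ht.1, ht.2⟩

lemma dis_smallW (hC : Calc) (hw : IsW0 w I Z A) {R : ℝ} (hR : 1 ≤ R) (hρ : 0 < ρ) (hI : t ∈ I)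
    (ht : t ∈ Icc (-ρ ^ 2 - (R * ρ) ^ 2) (-ρ ^ 2 / 2)) :
    ∫⁻ x in ball (0 : E3) (7 * (R * ρ)),
      ENNReal.ofReal (max (|lap (w t) x| - 7 * R ^ 2 / (R * ρ)) 0 ^ 2) ∂(ar (w t))
      ≤ ENNReal.ofReal (8 * Real.pi * R ^ 2 * Real.exp (25 * R ^ 2) * ρ ^ 2) * dis w 0 0 t := by
  by_cases hZ : t ∈ Z
  · simp [hw.ar_sing hZ]
  · obtain ⟨a, b, h1, -, h2⟩ := hw.loc ⟨hI, hZ⟩
    exact dis_small hC h2.toIsFlow hR hρ h1 ht

lemma defect_win (hT : TangW) {a R : ℝ} (ha : a < 0) (hw : IsW0 w (Ioo a 0) Z A) (hR : 1 ≤ R)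
    (hε : 0 < ε) : ∃ ρ₁ > (0 : ℝ), ∀ ρ : ℝ, 0 < ρ → ρ ≤ ρ₁ → DefLe w Z (ball 0 (7 * (R * ρ)))
      (-ρ ^ 2 - (R * ρ) ^ 2) (-ρ ^ 2 / 2) (ε * (R * ρ) ^ 2) := by
  obtain ⟨ρ₁, h₁, h⟩ := hT.defect w a Z A ha hw (7 * R) (ε * R ^ 2) (by linarith) (by positivity)
  refine ⟨ρ₁, h₁, fun ρ hρ h2 => ?_⟩
  have h3 := h 1 ρ one_pos hρ ((one_mul ρ).trans_le h2)
  rw [resc_one, zs_one, mul_assoc, mul_assoc ε, ← mul_pow] at h3
  have h4 : ρ ^ 2 ≤ (R * ρ) ^ 2 := pow_le_pow_left₀ hρ.le (by nlinarith) 2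
  have h5 : (ρ / (7 * R)) ^ 2 ≤ (ρ / 7) ^ 2 := by gcongr; linarith
  exact h3.mono (by nlinarith) (by nlinarith)

theorem win_count (hc : CellW) (A C : ℝ) {δ : ℝ} (hδ : 0 < δ) :
    ∃ r₀ > (0 : ℝ), ∃ N : ℝ, 0 ≤ N ∧ ∀ w a Z, a ≤ -20 → IsG0 w (Ioo a 0) Z A C →
      ∀ ρ : ℝ, 0 < ρ → ρ ≤ 1 →
      ∀ F : Finset P218UD.Lat, (∀ Q ∈ F, ‖zQ Q‖ < 3 ∧ rQ Q ≤ r₀ * ρ) →
      ∑ Q ∈ F, ENNReal.ofReal (Real.exp (-‖zQ Q‖ / (2 * ρ)) / ρ ^ 2) * volume (ld w δ ρ Q)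
        ≤ ENNReal.ofReal N := by
  classical
  obtain ⟨r₀, hr₀, N, hN⟩ := hc.count A C δ hδ
  set s : ℕ → ℝ := fun n => ((n : ℝ) + 1) ^ 2 * Real.exp (-n / 2) with hs
  have hs0 : ∀ n, 0 ≤ s n := fun n => by positivity
  refine ⟨r₀, hr₀, N * ∑' n, s n, mul_nonneg N.coe_nonneg (tsum_nonneg hs0), ?_⟩
  intro w a Z ha hw ρ hρ hρ1 F hF
  set g : P218UD.Lat → ℕ := fun Q => ⌊‖zQ Q‖ / ρ⌋₊ with hg
  rw [← Finset.sum_fiberwise_of_maps_to (g := g) (t := F.image g)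
    fun Q hQ => Finset.mem_image_of_mem g hQ]
  have key : ∀ n ∈ F.image g, ∑ Q ∈ F with g Q = n,
      ENNReal.ofReal (Real.exp (-‖zQ Q‖ / (2 * ρ)) / ρ ^ 2) * volume (ld w δ ρ Q)
      ≤ ENNReal.ofReal (N * s n) := fun n hn => by
    have h1 : ∀ Q, g Q = n → n * ρ ≤ ‖zQ Q‖ ∧ ‖zQ Q‖ < (n + 1) * ρ := fun Q hQ => by
      have h2 := Nat.floor_le (a := ‖zQ Q‖ / ρ) (by positivity)
      have h3 := Nat.lt_floor_add_one (‖zQ Q‖ / ρ)
      change ((g Q : ℕ) : ℝ) ≤ _ at h2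
      change _ < ((g Q : ℕ) : ℝ) + 1 at h3
      rw [hQ] at h2 h3
      exact ⟨(le_div_iff₀ hρ).1 h2, (div_lt_iff₀ hρ).1 h3⟩
    obtain ⟨Q₀, hQ₀, hQ₀'⟩ := Finset.mem_image.1 hn
    have h2 : (n + 1) * ρ ≤ 4 := by nlinarith [(h1 Q₀ hQ₀').1, (hF Q₀ hQ₀).1]
    have h3 : ρ ≤ (n + 1) * ρ := by nlinarith [(Nat.cast_nonneg n : (0 : ℝ) ≤ n)]
    have h4 := hN w _ Z hw 0 ((n + 1) * ρ) (-ρ ^ 2) (-ρ ^ 2 / 2) (by positivity) (by nlinarith)
      (fun t ht => ⟨by nlinarith [ht.1], by nlinarith [ht.2]⟩) (F.filter fun Q => g Q = n)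
      fun Q hQ => by
        rw [Finset.mem_filter] at hQ
        exact ⟨mem_ball_zero_iff.2 (by nlinarith [(h1 Q hQ.2).2]),
          (hF Q hQ.1).2.trans (mul_le_mul_of_nonneg_left h3 hr₀.le)⟩
    calc _ ≤ ∑ Q ∈ F with g Q = n,
          ENNReal.ofReal (Real.exp (-n / 2) / ρ ^ 2) * volume (ld w δ ρ Q) := by
          refine Finset.sum_le_sum fun Q hQ => mul_le_mul_left (ENNReal.ofReal_le_ofReal ?_) _
          refine div_le_div_of_nonneg_right (Real.exp_le_exp.2 ?_) (by positivity)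
          rw [div_le_div_iff₀ (by positivity) (by positivity)]
          nlinarith [(h1 Q (Finset.mem_filter.1 hQ).2).1]
      _ ≤ ENNReal.ofReal (Real.exp (-n / 2) / ρ ^ 2) *
          (N * ENNReal.ofReal (((n + 1) * ρ) ^ 2)) := by
          rw [← Finset.mul_sum]
          exact mul_le_mul_right h4 _
      _ = _ := by
          rw [← ENNReal.ofReal_coe_nnreal, ← ENNReal.ofReal_mul N.coe_nonneg,
            ← ENNReal.ofReal_mul (by positivity)]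
          congr 1
          simp only [hs]
          field_simp
  refine (Finset.sum_le_sum key).trans ?_
  rw [← ENNReal.ofReal_sum_of_nonneg fun n _ => mul_nonneg N.coe_nonneg (hs0 n), ← Finset.mul_sum]
  exact ENNReal.ofReal_le_ofReal (mul_le_mul_of_nonneg_left
    (summable_shell.sum_le_tsum _ fun n _ => hs0 n) N.coe_nonneg)

lemma measurableSet_ld (hc : CellW) {a : ℝ} (ha : a ≤ -20) (hw : IsW0 w (Ioo a 0) Z A)
    (hρ : 0 < ρ) (hρ1 : ρ ≤ 1) {Q : P218UD.Lat} (hQ : rQ Q ≤ 1) : MeasurableSet (ld w δ ρ Q) := by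
  have h3 : rQ Q ^ 2 ≤ 1 := pow_le_one₀ (rQ_pos Q).le hQ
  have h4 := measurableSet_loud (w := w) (δ := δ) (Q := Q) (J := Ioo (-2) 0) isOpen_Ioo
    fun t ht => hc.smooth w _ Z A hw _ _ _ (rQ_pos Q) fun s hs =>
      ⟨by nlinarith [hs.1, ht.1], by nlinarith [hs.2, ht.2]⟩
  have e : ld w δ ρ Q = loud w δ (Ioo (-2) 0) Q ∩ Icc (-ρ ^ 2) (-ρ ^ 2 / 2) :=
    Set.ext fun t => ⟨fun h => ⟨⟨⟨by nlinarith [h.1.1], by nlinarith [h.1.2]⟩, h.2⟩,
      h.1⟩, fun h => ⟨h.2, h.1.2⟩⟩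
  rw [e]
  exact h4.inter measurableSet_Icc

theorem win_small (hC : Calc) (hc : CellW) (hT : TangW) {a C : ℝ}
    (ha : a ≤ -20) (hw : IsG0 w (Ioo a 0) Z A C) (hδ : 0 < δ) (hε : 0 < ε) :
    ∃ r₀ > (0 : ℝ), ∃ ρ₀ > (0 : ℝ), ∀ ρ : ℝ, 0 < ρ → ρ ≤ ρ₀ →
      ∀ F : Finset P218UD.Lat, (∀ Q ∈ F, ‖zQ Q‖ < 3 ∧ rQ Q ≤ r₀ * ρ) →
      ∑ Q ∈ F, ∫⁻ t in ld w δ ρ Q, ENNReal.ofReal (Real.exp (-‖zQ Q‖ / ρ) / ρ ^ 2 *
        (rQ Q ^ 2 * |deriv (bbar w (zQ Q) (rQ Q)) t|)) ≤ ENNReal.ofReal ε := by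
  classical
  obtain ⟨r₁, hr₁, N, hN0, hN⟩ := win_count hc A C hδ
  obtain ⟨B, hB⟩ := hc.crude A
  obtain ⟨R, hR, hR2⟩ : ∃ R : ℝ, 1 ≤ R ∧ Real.exp (-R / 2) * |B| * N ≤ ε / 2 := by
    have h1 : Tendsto (fun R : ℝ => Real.exp (-R / 2) * |B| * N) atTop (𝓝 (0 * |B| * N)) :=
      ((Real.tendsto_exp_atBot.comp (tendsto_neg_atTop_atBot.atBot_div_const
        two_pos)).mul_const _).mul_const _
    rw [zero_mul, zero_mul] at h1
    exact ((eventually_ge_atTop 1).and (h1.eventually (ge_mem_nhds (half_pos hε)))).exists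
  obtain ⟨r₂, hr₂, ε', hε', hS⟩ := hc.small A C δ (7 * R ^ 2) (ε / 2 / R ^ 2) hδ (by positivity)
    (by positivity)
  set D := 8 * Real.pi * R ^ 2 * Real.exp (25 * R ^ 2) with hD
  have hD0 : 0 < D := by positivity
  obtain ⟨b, hb, hb'⟩ := (mem_nhdsLT_iff_exists_Ioo_subset).1
    ((hT.diss w a Z A (by linarith) hw.toIsW0).eventually
      (gt_mem_nhds (ENNReal.ofReal_pos.2 (by positivity : 0 < ε' * R ^ 2 / D))))
  rw [mem_Iio] at hb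
  obtain ⟨ρ₁, hρ₁, hdef⟩ := defect_win hT (by linarith) hw.toIsW0 hR hε'
  refine ⟨min 1 (min r₁ r₂), by positivity, min ρ₁ (min 1 (min 1 (-b) / (4 * R ^ 2))), by
    have : 0 < -b := by linarith
    positivity, fun ρ hρ hρ₀ F hF => ?_⟩
  replace hdef := hdef ρ hρ (hρ₀.trans (min_le_left _ _))
  replace hρ₀ := hρ₀.trans (min_le_right _ _)
  have hρ1 : ρ ≤ 1 := hρ₀.trans (min_le_left _ _)
  have hρ2 : 4 * R ^ 2 * ρ ^ 2 ≤ min 1 (-b) := by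
    have h1 := (le_div_iff₀ (by positivity)).1 (hρ₀.trans (min_le_right _ _))
    nlinarith [mul_pos hρ (by positivity : 0 < 4 * R ^ 2)]
  have hρ3 := hρ2.trans (min_le_left _ _)
  have hρ4 := hρ2.trans (min_le_right _ _)
  have hρ5 : ρ ^ 2 ≤ (R * ρ) ^ 2 := pow_le_pow_left₀ hρ.le (by nlinarith) 2
  have hρ6 : 0 < ρ ^ 2 := by positivity
  have hI : Icc (-ρ ^ 2 - (R * ρ) ^ 2) (-ρ ^ 2 / 2) ⊆ Ioo a 0 := fun t ht =>
    ⟨by nlinarith [ht.1], by nlinarith [ht.2]⟩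
  rw [← Finset.sum_filter_add_sum_filter_not F fun Q => ‖zQ Q‖ < R * ρ,
    ← add_halves ε, ENNReal.ofReal_add (by positivity) (by positivity)]
  refine add_le_add ?_ ?_
  · have h1 := hS w _ Z hw 0 (R * ρ) (-ρ ^ 2) (-ρ ^ 2 / 2) (by positivity) (by nlinarith) hI ?_
      hdef (F.filter fun Q => ‖zQ Q‖ < R * ρ) fun Q hQ => by
        rw [Finset.mem_filter] at hQ
        refine ⟨mem_ball_zero_iff.2 (by nlinarith [hQ.2]), (hF Q hQ.1).2.trans ?_⟩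
        exact mul_le_mul ((min_le_right _ _).trans (min_le_right _ _)) (by nlinarith) hρ.le hr₂.le
    · calc _ ≤ ∑ Q ∈ F with ‖zQ Q‖ < R * ρ, ENNReal.ofReal (1 / ρ ^ 2) * ∫⁻ t in ld w δ ρ Q,
            ENNReal.ofReal (rQ Q ^ 2 * |deriv (bbar w (zQ Q) (rQ Q)) t|) := by
            refine Finset.sum_le_sum fun Q _ => ?_
            rw [← lintegral_const_mul' _ _ ENNReal.ofReal_ne_top]
            refine lintegral_mono fun t => ?_
            rw [← ENNReal.ofReal_mul (by positivity)]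
            refine ENNReal.ofReal_le_ofReal (mul_le_mul_of_nonneg_right
              (div_le_div_of_nonneg_right (Real.exp_le_one_iff.2 ?_) hρ6.le) (by positivity))
            exact div_nonpos_of_nonpos_of_nonneg (by simp) hρ.le
        _ ≤ ENNReal.ofReal (1 / ρ ^ 2) * ENNReal.ofReal (ε / 2 / R ^ 2 * (R * ρ) ^ 2) := by
            rw [← Finset.mul_sum]
            exact mul_le_mul_right h1 _
        _ = _ := by
            rw [← ENNReal.ofReal_mul (by positivity)]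
            congr 1
            field_simp
    · have h2 : -3 * (R * ρ) ^ 2 ∈ Ioo b 0 := ⟨by nlinarith, by nlinarith⟩
      calc _ ≤ ∫⁻ t in Icc (-ρ ^ 2 - (R * ρ) ^ 2) (-ρ ^ 2 / 2),
            ENNReal.ofReal (D * ρ ^ 2) * dis w 0 0 t :=
            setLIntegral_mono' measurableSet_Icc fun t ht =>
              dis_smallW hC hw.toIsW0 hR hρ (hI ht) ht
        _ ≤ ENNReal.ofReal (D * ρ ^ 2) * ∫⁻ t in Ioo (-3 * (R * ρ) ^ 2) 0, dis w 0 0 t := by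
            rw [lintegral_const_mul' _ _ ENNReal.ofReal_ne_top]
            refine mul_le_mul_right (lintegral_mono_set ?_) _
            exact fun t ht => ⟨by nlinarith [ht.1], by nlinarith [ht.2]⟩
        _ ≤ ENNReal.ofReal (D * ρ ^ 2) * ENNReal.ofReal (ε' * R ^ 2 / D) :=
            mul_le_mul_right (hb' h2).le _
        _ = _ := by
            rw [← ENNReal.ofReal_mul (by positivity)]
            congr 1
            field_simp
  · have h1 := hN w a Z ha hw ρ hρ hρ1 (F.filter fun Q => ¬‖zQ Q‖ < R * ρ) fun Q hQ => by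
      rw [Finset.mem_filter] at hQ
      exact ⟨(hF Q hQ.1).1, (hF Q hQ.1).2.trans (mul_le_mul_of_nonneg_right
        ((min_le_right _ _).trans (min_le_left _ _)) hρ.le)⟩
    calc _ ≤ ∑ Q ∈ F with ¬‖zQ Q‖ < R * ρ, ENNReal.ofReal (Real.exp (-R / 2) * |B|) *
          (ENNReal.ofReal (Real.exp (-‖zQ Q‖ / (2 * ρ)) / ρ ^ 2) * volume (ld w δ ρ Q)) := by
          refine Finset.sum_le_sum fun Q hQ => ?_
          rw [Finset.mem_filter, not_lt] at hQ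
          have h2 : rQ Q ≤ ρ := (hF Q hQ.1).2.trans (by nlinarith [min_le_left 1 (min r₁ r₂)])
          have h3 : rQ Q ^ 2 ≤ ρ ^ 2 := pow_le_pow_left₀ (rQ_pos Q).le h2 2
          have hm : MeasurableSet (ld w δ ρ Q) :=
            measurableSet_ld hc ha hw.toIsW0 hρ hρ1 (h2.trans hρ1)
          rw [← mul_assoc, ← setLIntegral_const, ← ENNReal.ofReal_mul (by positivity)]
          refine setLIntegral_mono' hm fun t ht => ENNReal.ofReal_le_ofReal ?_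
          have h4 := (hB w _ Z hw.toIsW0 (zQ Q) _ t (rQ_pos Q) fun s hs =>
            ⟨by nlinarith [hs.1, ht.1.1], by nlinarith [hs.2, ht.1.2]⟩).trans (le_abs_self B)
          have h5 : Real.exp (-‖zQ Q‖ / ρ)
              ≤ Real.exp (-R / 2) * Real.exp (-‖zQ Q‖ / (2 * ρ)) := by
            rw [← Real.exp_add]
            refine Real.exp_le_exp.2 ?_
            have h6 : R ≤ ‖zQ Q‖ / ρ := (le_div_iff₀ hρ).2 hQ.2
            have e : -‖zQ Q‖ / (2 * ρ) = -(‖zQ Q‖ / ρ) / 2 := by field_simp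
            rw [e, neg_div]
            linarith
          calc _ ≤ Real.exp (-R / 2) * Real.exp (-‖zQ Q‖ / (2 * ρ)) / ρ ^ 2 * |B| := by gcongr
            _ = _ := by ring
      _ ≤ ENNReal.ofReal (Real.exp (-R / 2) * |B|) * ENNReal.ofReal N := by
          rw [← Finset.mul_sum]
          exact mul_le_mul_right h1 _
      _ ≤ _ := by
          rw [← ENNReal.ofReal_mul (by positivity)]
          exact ENNReal.ofReal_le_ofReal hR2

theorem total_loss (hC : Calc) (hc : CellW) (hT : TangW) {a C : ℝ} (ha : a ≤ -20)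
    (hw : IsG0 w (Ioo a 0) Z A C) (hδ : 0 < δ) (hε : 0 < ε) (h₁ : 0 ≤ k₁) :
    ∃ ε' > (0 : ℝ), ∀ (e : E3 → ℝ) (Λ k₂ k₃ : ℝ), Measurable e → (∀ x, 0 ≤ e x) → 1 ≤ Λ →
      0 ≤ k₂ → 0 ≤ k₃ → (∀ (μ : Measure E3) (A : ℝ), 0 ≤ A → AR μ A → ∀ (z : E3) (r : ℝ), 0 < r →
        ∫⁻ x, ENNReal.ofReal (e (r⁻¹ • (x - z)) / r ^ 2) ∂μ ≤ ENNReal.ofReal (ε' * A)) →
      ∃ b : ℝ, ∀ a₀ ≤ b, ∀ᶠ t₀ in 𝓝[<] (0 : ℝ), ∀ F : Finset P218UD.Lat, (∀ Q ∈ F, ‖zQ Q‖ < 3) →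
        ∀ m : ℕ, ∫⁻ t in Icc t₀ (t₀ / 2 ^ (m + 1)), ∫⁻ x, ENNReal.ofReal
          (Phi t x * ∑ Q ∈ act w δ Λ a₀ F t x, hQ w e k₁ k₂ k₃ Q t x) ∂(ar (w t))
          ≤ (m + 1 : ℕ) * ENNReal.ofReal ε := by
  classical
  have hA : 0 ≤ A := zero_le_one.trans hw.one_le
  obtain ⟨r₁, hr₁, N, hN0, hN⟩ := win_count hc A C hδ
  refine ⟨ε / (8 * (k₁ * A * N + 1)), by positivity, fun e Λ k₂ k₃ he he0 hΛ h₂ h₃ he1 => ?_⟩
  obtain ⟨r₂, hr₂, ρ₀, hρ₀, hS⟩ := win_small hC hc hT ha hw hδ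
    (by positivity : 0 < ε / (8 * (k₂ * A * Λ ^ 2 + 1)))
  set r₀ := min 1 (min r₁ r₂) with hr₀
  set η₀ := min (1 / Λ) (min r₀ (ε / (8 * ((k₃ + 1) * A * Λ ^ 2 * N + 1)))) with hη₀
  have hη₀0 : 0 < η₀ := by positivity
  refine ⟨Real.log η₀ - 4, fun a₀ ha₀ => ?_⟩
  have hη : Real.exp (a₀ + 4) ≤ η₀ := (Real.le_log_iff_exp_le hη₀0).1 (by linarith)
  have hη1 : Λ * Real.exp (a₀ + 4) ≤ 1 := by
    have := (le_div_iff₀ (by positivity)).1 (hη.trans (min_le_left _ _))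
    linarith
  have hη2 : Real.exp (a₀ + 4) ≤ r₀ := hη.trans ((min_le_right _ _).trans (min_le_left _ _))
  have hη3 := (le_div_iff₀ (by positivity)).1
    (hη.trans ((min_le_right _ _).trans (min_le_right _ _)))
  have hm0 : 0 < min 1 ρ₀ := by positivity
  filter_upwards [Ioo_mem_nhdsLT (by nlinarith : -min 1 ρ₀ ^ 2 < 0)] with t₀ ht₀ F hF m
  refine lint_dyadic _ (fun i => ?_) m
  have h2i : (1 : ℝ) ≤ 2 ^ i := one_le_pow₀ one_le_two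
  have hp : 0 < -t₀ / 2 ^ i := div_pos (by linarith [ht₀.2]) (by positivity)
  obtain ⟨ρ, hρ, hρ2⟩ : ∃ ρ : ℝ, 0 < ρ ∧ ρ ^ 2 = -t₀ / 2 ^ i :=
    ⟨√(-t₀ / 2 ^ i), Real.sqrt_pos.2 hp, Real.sq_sqrt hp.le⟩
  have hρ3 : ρ ≤ min 1 ρ₀ := by
    refine (pow_le_pow_iff_left₀ hρ.le hm0.le two_ne_zero).1 ?_
    rw [hρ2]
    exact (div_le_self (by linarith [ht₀.2]) h2i).trans (by linarith [ht₀.1])
  have hρ1 : ρ ≤ 1 := hρ3.trans (min_le_left _ _)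
  have e1 : t₀ / 2 ^ i = -ρ ^ 2 := by rw [hρ2]; ring
  have e2 : t₀ / 2 ^ (i + 1) = -ρ ^ 2 / 2 := by rw [hρ2]; ring
  rw [e1, e2]
  have hF' : ∀ r, r₀ ≤ r → ∀ Q ∈ F.filter fun Q => rQ Q ≤ r₀ * ρ, ‖zQ Q‖ < 3 ∧ rQ Q ≤ r * ρ :=
    fun r hr Q hQ => ⟨hF Q (Finset.mem_filter.1 hQ).1,
      (Finset.mem_filter.1 hQ).2.trans (mul_le_mul_of_nonneg_right hr hρ.le)⟩
  refine (setLIntegral_mono' measurableSet_Icc fun t ht => slice_loss
    (hw.ratio t ⟨by nlinarith [ht.1], by nlinarith [ht.2]⟩) hA he he0 (by positivity)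
    (he1 _ A hA (hw.ratio t ⟨by nlinarith [ht.1], by nlinarith [ht.2]⟩)) hρ hρ1 ht hΛ hη1 hη2
    h₁ h₂ h₃ F).trans ((setLIntegral_le_lintegral _ _).trans ((window_loss
      (fun Q hQ => measurableSet_ld hc ha hw.toIsW0 hρ hρ1
        ((hF' 1 (min_le_left _ _) Q hQ).2.trans (by linarith))) hρ (by positivity)
      (by positivity) (by positivity) hN0
      (hN w a Z ha hw ρ hρ hρ1 _ (hF' _ ((min_le_right _ _).trans (min_le_left _ _))))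
      (hS ρ hρ (hρ3.trans (min_le_right _ _)) _
        (hF' _ ((min_le_right _ _).trans (min_le_right _ _))))).trans
          (ENNReal.ofReal_le_ofReal ?_)))
  have key : ∀ u : ℝ, 0 ≤ u → u * (ε / (8 * (u + 1))) ≤ ε / 8 := fun u hu => by
    rw [← mul_div_assoc, div_le_div_iff₀ (by positivity) (by positivity)]
    nlinarith
  have k1 := key (k₁ * A * N) (by positivity)
  have k2 := key (k₂ * A * Λ ^ 2) (by positivity)
  have k3 := Real.exp_pos (a₀ + 4)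
  nlinarith

/-- the loud lattice balls at small scales -/
theorem tail_loss (hw : IsW0 w I Z A) {T : Set ℝ} (hT : MeasurableSet T) (hI : T ⊆ I)
    {F : Finset P218UD.Lat} (hm : ∀ Q ∈ F, MeasurableSet {t ∈ T | δ ≤ bbar w (zQ Q) (rQ Q) t})
    {k : ℝ} (hk : 0 ≤ k) (hΛ : 0 < Λ) :
    ∫⁻ t in T, ∫⁻ x, ENNReal.ofReal (∑ Q ∈ act w δ Λ a₀ F t x, k / rQ Q ^ 2) ∂(ar (w t))
      ≤ ENNReal.ofReal (k * A * Λ ^ 2) *
        ∑ Q ∈ F, volume {t ∈ T | δ ≤ bbar w (zQ Q) (rQ Q) t} := by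
  classical
  have hA : 0 ≤ A := zero_le_one.trans hw.one_le
  rw [Finset.mul_sum, ← Finset.sum_congr rfl fun Q hQ => lintegral_indicator_const (hm Q hQ) _,
    ← lintegral_finsetSum _ fun Q hQ => measurable_const.indicator (hm Q hQ)]
  refine le_trans (setLIntegral_mono' hT fun t ht => ?_) (setLIntegral_le_lintegral T _)
  refine le_trans (lintegral_mono (g := fun x => ∑ Q ∈ F with δ ≤ bbar w (zQ Q) (rQ Q) t,
    (closedBall (zQ Q) (Λ * rQ Q)).indicator (fun _ => ENNReal.ofReal (k / rQ Q ^ 2)) x)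
      fun x => ?_) ?_
  · rw [ENNReal.ofReal_sum_of_nonneg fun Q _ => by positivity]
    refine le_trans (Finset.sum_le_sum fun Q hQ => ?_) (Finset.sum_le_sum_of_subset
      (s := act w δ Λ a₀ F t x) fun Q hQ => Finset.mem_filter.2
        ⟨(Finset.mem_filter.1 hQ).1, (Finset.mem_filter.1 hQ).2.2.1⟩)
    rw [indicator_of_mem (mem_closedBall_iff_norm.2 (Finset.mem_filter.1 hQ).2.2.2.le)]
  · rw [lintegral_finsetSum _ fun Q _ => measurable_const.indicator measurableSet_closedBall]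
    refine le_trans (Finset.sum_le_sum fun Q hQ => ?_)
      (Finset.sum_le_sum_of_subset (Finset.filter_subset (fun Q => δ ≤ bbar w (zQ Q) (rQ Q) t) F))
    have hp := rQ_pos Q
    rw [lintegral_indicator_const measurableSet_closedBall,
      indicator_of_mem (by exact ⟨ht, (Finset.mem_filter.1 hQ).2⟩)]
    refine (mul_le_mul_right (hw.ratio t (hI ht) _ _ (by positivity)) _).trans_eq ?_
    rw [← ENNReal.ofReal_mul (by positivity)]
    congr 1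
    field_simp

end Vale.Agent.P218WM
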