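import Vale.Agent.P218WM.Main
import Vale.Agent.P218UX.Mono
import Vale.Agent.P218UU.Slow
import Vale.Agent.P218UT.Cyl
import Vale.Agent.P218UI.Weight

/-! The block M1 for weak flows. -/

namespace Vale.Agent.P218WM

open Vale.Agent.P218WA

theorem m1W (hC : CalcW) (hT : TangW) (hO : CoreW) (hc : CellW) (hF : FlatW) : M1W :=
  m1_of P218UX.calcThm P218UX.monoThm (P218UU.tan P218UX.monoThm) P218UT.cylDens P218UI.weight
    hC hT hO hc hF

end Vale.Agent.P218WM
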