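import Vale.Agent.P218WM.Step
import Vale.Agent.P218UZ.M1b

/-! Some tangent flow of a weak flow has multiplicity one almost everywhere. -/

open MeasureTheory Set Filter Topology Metric
open scoped ENNReal NNReal RealInnerProductSpace ContDiff

namespace Vale.Agent.P218WM

open Vale.Agent.P218UA Vale.Agent.P218UD Vale.Agent.P218UM Vale.Agent.P218UZ Vale.Agent.P218WA

variable {w : ℝ → E3 → ℝ} {δ Λ a₀ A : ℝ} {I Z : Set ℝ}

/-- the weighted estimate: on average in logarithmic time the bad points have small mass -/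
def M1aW : Prop :=
  ∀ w a Z A C, a ≤ -20 → IsWG w (Ioo a 0) Z A C → ∃ (θ : ℝ) (O : Set (ℝ × E3 × ℝ)), θ ≤ 1 / 10 ∧
    IsOpen O ∧ (∀ t ∈ Ioo a 0 \ Z, ∀ x y, ¬Reg (w t) θ x (Real.exp y) → (t, x, y) ∈ O) ∧
    ∀ R ε b : ℝ, 0 < ε → ∃ a₀ ≤ b, ∀ᶠ t₀ in 𝓝[<] (0 : ℝ), ∃ K : ℝ, ∀ m : ℕ,
      ∫⁻ t in Ioo (t₀ / 2) (t₀ / 2 ^ m), ar (w t) (NN O R a₀ t) * ENNReal.ofReal (1 / t ^ 2)
        ≤ ENNReal.ofReal (K + ε * m)

/-- intervals of regular times -/
lemma exists_reg (h1 : IsClosed Z) (h2 : volume Z = 0) {a b : ℝ} (h : a < b) :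
    ∃ u v, a ≤ u ∧ u < v ∧ v ≤ b ∧ ∀ t ∈ Icc u v, t ∉ Z := by
  obtain ⟨t, ht, hZ⟩ := exists_notMem h2 h
  obtain ⟨u, v, h3, h4⟩ := mem_nhds_iff_exists_Ioo_subset.1
    ((isOpen_Ioo.sdiff h1).mem_nhds ⟨ht, hZ⟩)
  have h5 : (t + v) / 2 ∈ Ioo u v := ⟨by linarith [h3.1, h3.2], by linarith [h3.2]⟩
  exact ⟨t, (t + v) / 2, ht.1.le, by linarith [h3.2], (h4 h5).1.2.le,
    fun s hs => (h4 ⟨h3.1.trans_le hs.1, hs.2.trans_lt h5.2⟩).2⟩

lemma meas_loud {Q : P218UD.Lat} {a b : ℝ}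
    (h : ∀ t ∈ Ioo (-1 / 4 : ℝ) 0, ContDiffAt ℝ ∞ (bbar w (zQ Q) (rQ Q)) t) (ha : -1 / 4 < a)
    (hb : b < 0) : MeasurableSet {t ∈ Icc a b | δ ≤ bbar w (zQ Q) (rQ Q) t} :=
  (Set.ext fun _ => ⟨fun h => ⟨h.2, h.1.2⟩, fun h => ⟨⟨⟨ha.trans_le h.1.1, h.1.2.trans_lt hb⟩, h.2⟩,
    h.1⟩⟩ : loud w δ (Ioo (-1 / 4) 0) Q ∩ Icc a b = {t ∈ Icc a b | δ ≤ bbar w (zQ Q) (rQ Q) t}) ▸
    (measurableSet_loud isOpen_Ioo h).inter measurableSet_Icc

lemma meas_act {F : Finset P218UD.Lat} {a b k : ℝ}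
    (h : ∀ Q ∈ F, ∀ t ∈ Ioo (-1 / 4 : ℝ) 0, ContDiffAt ℝ ∞ (bbar w (zQ Q) (rQ Q)) t)
    (ha : -1 / 4 < a) (hb : b < 0) (hk : 0 ≤ k) : Measurable ((Icc a b ×ˢ (univ : Set E3)).indicator
      fun p : ℝ × E3 => ∑ Q ∈ act w δ Λ a₀ F p.1 p.2, k / rQ Q ^ 2) := by
  obtain ⟨q, h1, -, h2⟩ := exists_q (δ := δ) (Λ := Λ) (a₀ := a₀) (e := fun _ => k)
    measurable_const (fun _ => ⟨hk, le_rfl⟩) isOpen_Ioo h
  rw [indicator_congr (g := fun p => (q p - 36) / 2) fun p hp => by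
    simp only [h2 p ⟨ha.trans_le hp.1.1, hp.1.2.trans_lt hb⟩]; ring]
  exact ((h1.sub_const _).div_const _).indicator (measurableSet_Icc.prod .univ)

lemma split_loss {α : Type*} [MeasurableSpace α] {μ : Measure α} {S : Set α} {f g h : α → ℝ}
    (hm : Measurable (S.indicator h)) :
    ∫⁻ p, ENNReal.ofReal (S.indicator (fun p => f p + (g p + h p)) p) ∂μ
      ≤ ∫⁻ p, ENNReal.ofReal (S.indicator (fun p => f p + g p) p) ∂μ
        + ∫⁻ p, ENNReal.ofReal (S.indicator h p) ∂μ := by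
  rw [← lintegral_add_right _ hm.ennreal_ofReal]
  refine lintegral_mono fun p => le_trans (le_of_eq ?_) ENNReal.ofReal_add_le
  by_cases hp : p ∈ S <;> simp [hp, add_assoc]

lemma lint_ind_le {T : Set ℝ} (hT : MeasurableSet T) (f : ℝ × E3 → ℝ) :
    ∫⁻ p, ENNReal.ofReal ((T ×ˢ (univ : Set E3)).indicator f p) ∂(stm w I)
      ≤ ∫⁻ t in T, ∫⁻ x, ENNReal.ofReal (f (t, x)) ∂(ar (w t)) := by
  rw [← lintegral_indicator hT]
  refine (lint_stm_le _).trans ((setLIntegral_le_lintegral _ _).trans (lintegral_mono fun t => ?_))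
  by_cases ht : t ∈ T <;> simp [ht]

/-- a regular time at which finitely many functions are small -/
lemma exists_timeW (hZ : volume Z = 0) {f : ℕ → ℝ → ℝ≥0∞} {a : ℝ}
    (hf : ∀ j, AEMeasurable (f j) (volume.restrict (Ioo a 0)))
    (h : ∀ j : ℕ, ∀ᶠ t₀ in 𝓝[<] (0 : ℝ), ∃ K : ℝ, ∀ m : ℕ,
      ∫⁻ t in Ioo (t₀ / 2) (t₀ / 2 ^ m), f j t * ENNReal.ofReal (1 / t ^ 2)
        ≤ ENNReal.ofReal (K + (1 / 2) ^ j * (1 / 2) ^ j / 4 * m))
    (J : ℕ) {b : ℝ} (hab : a ≤ b) (hb : b < 0) :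
    ∃ t ∈ Ioo b 0, t ∉ Z ∧ ∀ j < J, f j t ≤ ENNReal.ofReal ((1 / 2) ^ j * -t) := by
  have e : ∀ j, f j =ᵐ[volume] fun t => f j t + Z.indicator ⊤ t := fun j =>
    (ae_notMem hZ).mono fun t ht => by simp [ht]
  obtain ⟨t, h1, h2⟩ := exists_time (f := fun j t => f j t + Z.indicator ⊤ t)
    (fun j => (hf j).congr (ae_restrict_of_ae (e j))) (fun j => (h j).mono fun t₀ ⟨K, hK⟩ =>
      ⟨K, fun m => (lintegral_congr_ae ((ae_restrict_of_ae (e j)).mono fun t ht => by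
        simp only [← ht])).trans_le (hK m)⟩) (J + 1) hab hb
  exact ⟨t, h1, fun ht => by simpa [ht] using h2 0 J.succ_pos,
    fun j hj => le_self_add.trans (h2 j (by omega))⟩

theorem m1a (h1 : Calc) (hM : Mono) (hW : WeightStmtR) (hC : CalcW) (hT : TangW) (hO : CoreW)
    (hc : CellW) : M1aW := by
  intro w a Z A C ha hw
  have hA : 0 ≤ A := zero_le_one.trans hw.one_le
  obtain ⟨θ, σ, δ, c, C₀, -, hθ, -, -, hδ, hc0, hc1, hC₀, hcore⟩ := hO A hw.one_le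
  obtain ⟨hopen, hlow, hineq⟩ := hcore w _ Z C hw
  refine ⟨θ, _, hθ, hopen, fun t ht x y h => ⟨ht, Or.inl h⟩, fun R ε b hε => ?_⟩
  set O := {p : ℝ × E3 × ℝ | p.1 ∈ Ioo a 0 \ Z ∧ p.2.2 ∈ Om w (Ioo a 0) A σ θ p.1 p.2.1} with hO'
  set cR := Real.exp (-R ^ 2 / 4) / 2048 with hcR
  have hcR0 : 0 < cR := by positivity
  obtain ⟨ε', hε', hL⟩ := total_loss (δ := δ / 2) (k₁ := 1 + 2 * C₀) (ε := cR * ε) h1 hc hT ha hw.toIsG0
    (half_pos hδ) (by positivity) (by positivity)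
  obtain ⟨Λ, C₁, e, hΛ, hC₁, he, he0, -, he1, hγ⟩ := hW c ε' hc0 hε'
  have hk₂ : 0 ≤ C₁ * (CXi / δ) := mul_nonneg hC₁ (div_nonneg CXi_pos.le hδ.le)
  obtain ⟨b', hb'⟩ := hL e Λ (C₁ * (CXi / δ)) (20 * C₁) he (fun x => (he0 x).1) hΛ hk₂
    (by positivity) he1
  obtain ⟨CT, hCT0, hCT⟩ := lint_Phi hM
  obtain ⟨a₀, ha₁, ha₂, ha₃⟩ : ∃ a₀, a₀ ≤ b ∧ a₀ ≤ b' ∧ a₀ ≤ -4 :=
    ⟨min b (min b' (-4)), min_le_left _ _, (min_le_right _ _).trans (min_le_left _ _),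
      (min_le_right _ _).trans (min_le_right _ _)⟩
  refine ⟨a₀, ha₁, ?_⟩
  filter_upwards [hb' a₀ ha₂, Ioo_mem_nhdsLT (show -(1 / (2 * R ^ 2 + 8)) < (0 : ℝ) by
    rw [neg_lt_zero]; positivity)] with t₀ hL ht₀
  have h₀ : t₀ < 0 := ht₀.2
  have hR : -t₀ * (2 * R ^ 2 + 8) < 1 := (lt_div_iff₀ (by positivity)).1 (by linarith [ht₀.1])
  have h₀' : -1 / 4 < t₀ := by nlinarith [sq_nonneg R]
  obtain ⟨u, v, hu, huv, hv, hZ⟩ := exists_reg hw.closed hw.null (show t₀ < t₀ / 2 by linarith)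
  obtain ⟨B, hB, hB'⟩ := deriv_chi huv
  obtain ⟨y₀', hy₀'⟩ := hlow (Icc u v ×ˢ closedBall 0 2)
    (isCompact_Icc.prod (isCompact_closedBall _ _))
    fun p hp => ⟨⟨⟨by linarith [hp.1.1], by linarith [hp.1.2]⟩, hZ _ hp.1⟩, trivial⟩
  set K := B * |a₀ - y₀'| + 72 * C₀ with hK
  have hK0 : 0 ≤ K := by positivity
  refine ⟨(K * (CT * A) + 2) / cR + ε, fun m => ?_⟩
  set t₁ := t₀ / 2 ^ m with ht₁
  have h₁ : t₁ < 0 := div_neg_of_neg_of_pos h₀ (by positivity)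
  have hI : Icc t₀ (t₁ / 2) ⊆ Ioo a 0 := fun t ht => ⟨by linarith [ht.1], by linarith [ht.2]⟩
  set k := 2 * C₀ * Real.exp 8 / -t₁ with hk
  have hk0 : 0 ≤ k := div_nonneg (by positivity) (by linarith)
  obtain ⟨yt, hyt⟩ := hc.tail w _ Z A C hw.toIsG0 (δ / 2) 0 3 t₀ (t₁ / 2)
    (1 / (k * A * Λ ^ 2 + 1)) (half_pos hδ) (by positivity) hI
  obtain ⟨y₂, hy₂⟩ := hineq (ps u v t₁) (contDiff_ps h₁) (cpt_ps huv h₁)
    ((tsupport_ps huv h₁).trans fun p hp => ⟨hI ⟨hu.trans hp.1.1, hp.1.2⟩, trivial⟩)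
    (ps_nonneg h₁) 1 one_pos
  obtain ⟨ys, s1, s2, s3⟩ : ∃ ys, ys ≤ y₂ ∧ ys ≤ lev a₀ (t₁ / 2) - 1 ∧ ys ≤ yt - 4 :=
    ⟨min y₂ (min _ _), min_le_left _ _, (min_le_right _ _).trans (min_le_left _ _),
      (min_le_right _ _).trans (min_le_right _ _)⟩
  obtain ⟨y₀, -, η, e1, e2, e3, e4, e5⟩ := hy₂ ys s1
  obtain ⟨F, hF, main⟩ := step hC hc ha hw.toIsW0 hδ hC₀ hC₁ ha₃ hc1 he he0 hγ e5 e1
    (fun y => ⟨(e2 y).1, (e2 y).2.1⟩) e3 e4 s2 hO' hopen h₀ h₁ hu huv hv hR hB.le (hB' t₁ h₁) hy₀'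
  set F₂ := F.filter fun Q => (Q.1 : ℝ) < ys + 4 with hF₂
  have hT' := (tail_loss (δ := δ / 2) (Λ := Λ) (a₀ := a₀) (F := F₂) hw.toIsW0 measurableSet_Icc hI
    (fun Q hQ' => meas_loud (hF Q (Finset.mem_filter.1 hQ').1).2 (by linarith) (by linarith)) hk0
    (by linarith)).trans ((mul_le_mul_right (hyt F₂ fun Q hQ' => ⟨mem_ball_zero_iff.2
      (hF Q (Finset.mem_filter.1 hQ').1).1, by linarith [(Finset.mem_filter.1 hQ').2]⟩) _).trans
      (c := ENNReal.ofReal 1) (by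
      rw [← ENNReal.ofReal_mul (by positivity), mul_one_div]
      exact ENNReal.ofReal_le_ofReal ((div_le_one (by positivity)).2 (by linarith))))
  have hL' := hL F (fun Q h => (hF Q h).1) m
  rw [pow_succ, ← div_div, ← ht₁] at hL'
  have hNm := measurableSet_NN hopen R a₀
  have hNm' : MeasurableSet {p : ℝ × E3 | p.1 ∈ Ioo (t₀ / 2) t₁ ∧ p.2 ∈ NN O R a₀ p.1} :=
    (measurable_fst measurableSet_Ioo).inter hNm
  have hNt : ∀ t, MeasurableSet (NN O R a₀ t) := fun t => measurable_prodMk_left hNm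
  have k1 := le_trans (a := ENNReal.ofReal cR * ∫⁻ t in Ioo (t₀ / 2) t₁,
      ar (w t) (NN O R a₀ t) * ENNReal.ofReal (1 / t ^ 2)) (by
    rw [hC.stm_lint w _ Z A hw.toIsW0 _ (Measurable.indicator (by fun_prop) hNm').ennreal_ofReal,
      ← lintegral_const_mul' _ _ ENNReal.ofReal_ne_top]
    refine le_trans (setLIntegral_mono' measurableSet_Ioo fun t ht => le_of_eq ?_)
      (lintegral_mono_set (Ioo_subset_Ioo (by linarith) h₁.le))
    rw [mul_left_comm, ← ENNReal.ofReal_mul hcR0.le, mul_comm,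
      ← lintegral_indicator_const (hNt t)]
    refine lintegral_congr fun x => ?_
    by_cases hx : x ∈ NN O R a₀ t
    · rw [indicator_of_mem hx, indicator_of_mem (by exact ⟨ht, hx⟩)]
    · rw [indicator_of_notMem hx, indicator_of_notMem (fun h => hx h.2), ENNReal.ofReal_zero]) main
  have k2 := (lint_stm_le (w := w) (I := Ioo a 0) fun p => ENNReal.ofReal
    ((Icc t₀ (t₁ / 2) ×ˢ (univ : Set E3)).indicator (fun p => Phi p.1 p.2 * K + Phi p.1 p.2 *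
      ∑ Q ∈ act w (δ / 2) Λ a₀ F p.1 p.2,
        hQ w e (1 + 2 * C₀) (C₁ * (CXi / δ)) (20 * C₁) Q p.1 p.2) p)).trans (c := ∫⁻ t in Icc t₀ (t₁ / 2),
      (ENNReal.ofReal (K * (CT * A)) + ∫⁻ x, ENNReal.ofReal (Phi t x *
        ∑ Q ∈ act w (δ / 2) Λ a₀ F t x,
          hQ w e (1 + 2 * C₀) (C₁ * (CXi / δ)) (20 * C₁) Q t x) ∂(ar (w t)))) (by
    rw [← lintegral_indicator measurableSet_Icc]
    refine (setLIntegral_le_lintegral _ _).trans (lintegral_mono fun t => ?_)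
    by_cases ht : t ∈ Icc t₀ (t₁ / 2)
    · have hm : Measurable fun x => ENNReal.ofReal (Phi t x) := by
        unfold Phi
        fun_prop
      rw [indicator_of_mem ht]
      refine (lintegral_mono fun x => ?_).trans ((lintegral_add_left
        (hm.const_mul (ENNReal.ofReal K)) _).trans_le (add_le_add ?_ le_rfl))
      · rw [indicator_of_mem (by exact ⟨ht, trivial⟩), ← ENNReal.ofReal_mul hK0,
          mul_comm K]
        exact ENNReal.ofReal_add_le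
      · rw [lintegral_const_mul _ hm, ENNReal.ofReal_mul hK0]
        exact mul_le_mul_right (hCT _ A hA (hw.ratio t (hI ht)) t (hI ht).2) _
    · rw [indicator_of_notMem ht]
      refine le_of_eq (lintegral_eq_zero_of_ae_eq_zero (Eventually.of_forall fun x => ?_))
      simp only [Pi.zero_apply]
      rw [indicator_of_notMem (fun h => ht h.1), ENNReal.ofReal_zero])
  rw [lintegral_add_left measurable_const, setLIntegral_const, Real.volume_Icc] at k2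
  have k3 := k2.trans (add_le_add (mul_le_mul_right
    (ENNReal.ofReal_le_one.2 (by linarith : t₁ / 2 - t₀ ≤ 1)) _) hL')
  have k4 := k1.trans (add_le_add ((split_loss (meas_act (fun Q hQ' =>
    (hF Q (Finset.mem_filter.1 hQ').1).2) (by linarith) (by linarith) hk0)).trans
    (add_le_add k3 ((lint_ind_le measurableSet_Icc _).trans hT'))) le_rfl)
  refine (ENNReal.mul_le_mul_iff_right (ENNReal.ofReal_pos.2 hcR0).ne' ENNReal.ofReal_ne_top).1
    (k4.trans (le_of_eq ?_))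
  rw [mul_one, ← ENNReal.ofReal_natCast, ← ENNReal.ofReal_mul (by positivity),
    ← ENNReal.ofReal_add (by positivity) (by positivity),
    ← ENNReal.ofReal_add (by positivity) (by positivity),
    ← ENNReal.ofReal_add (by positivity) (by positivity), ← ENNReal.ofReal_mul hcR0.le]
  congr 1
  push_cast
  field_simp
  ring

theorem m1b' (hT₀ : Tan) (hC : CylDensStmt) (h1 : CalcW) (hT : TangW) (hF : FlatW) (h : M1aW)
    {a C : ℝ} (ha : a ≤ -20) (hw : IsWG w (Ioo a 0) Z A C) :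
    ∃ s ν, TanW w Z s ν ∧ ν (Zset ν) = 0 := by
  obtain ⟨θ, O, hθ, hO, hR, hM⟩ := h w a Z A C ha hw
  have ha0 : a < 0 := by linarith
  have hA : 0 ≤ A := zero_le_one.trans hw.one_le
  choose l hl hM using fun j : ℕ => hM j ((1 / 2) ^ j * (1 / 2) ^ j / 4) (-j) (by positivity)
  have hpos : ∀ J : ℕ, max a (-(1 / ((J : ℝ) + 1))) < 0 := fun J =>
    max_lt ha0 (neg_neg_of_pos Nat.one_div_pos_of_nat)
  choose t ht hZ hsm using fun J => exists_timeW hw.null (f := fun j t => ar (w t) (NN O j (l j) t)) (a := a)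
    (fun j => by
      refine (h1.stm_meas w _ Z A hw.toIsW0 _ (measurable_one.indicator
        (measurableSet_NN hO j (l j)))).congr (Eventually.of_forall fun t => ?_)
      exact lintegral_indicator_one (measurable_prodMk_left (measurableSet_NN hO j (l j)))) hM J
    (le_max_left _ _) (hpos J)
  have hs0 : ∀ J, 0 < √(-t J) := fun J => Real.sqrt_pos.2 (neg_pos.2 (ht J).2)
  have hs2 : ∀ J, √(-t J) ^ 2 * -1 = t J := fun J => by
    rw [Real.sq_sqrt (neg_nonneg.2 (ht J).2.le)]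
    ring
  have hlim : Tendsto (fun J => √(-t J)) atTop (𝓝 0) := by
    rw [← Real.sqrt_zero]
    exact (squeeze_zero (fun J => neg_nonneg.2 (ht J).2.le) (fun J =>
      neg_le.1 ((le_max_right _ _).trans (ht J).1.le)) tendsto_one_div_add_atTop_nhds_zero_nat).sqrt
  obtain ⟨φ, ν, hφ, hs⟩ := hT.compact w a Z A ha0 hw.toIsW0 _ hs0 hlim
    fun J => (hs2 J).symm ▸ hZ J
  refine ⟨_, ν, hs, ?_⟩
  have hν := hT.ratio w a Z A ha0 hw.toIsW0 _ ν hs
  have hfl := hF w a Z A C ha0 hw.toIsG0 _ ν hs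
  have hlf := hs.locFin
  have hg := fun i => h1.resc0 w a Z A hw.toIsW0 _ (hs.pos i)
  rw [← iUnion_inter_closedBall_nat (Zset ν) 0]
  refine measure_iUnion_null fun R => ?_
  obtain ⟨r₀, hr₀, hge⟩ := Flat.mk_ge hC hfl R
  have hlim2 : Tendsto (fun j : ℕ => ENNReal.ofReal ((1 / 2) ^ j)) atTop (𝓝 0) := by
    rw [← ENNReal.ofReal_zero]
    exact ENNReal.tendsto_ofReal (tendsto_pow_atTop_nhds_zero_of_lt_one (by norm_num) (by norm_num))
  refine nonpos_iff_eq_zero.1 (ge_of_tendsto hlim2 ?_)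
  filter_upwards [eventually_ge_atTop (R + 1), (Real.tendsto_exp_neg_atTop_nhds_zero.comp
    tendsto_natCast_atTop_atTop).eventually (gt_mem_nhds hr₀)] with j hj hj'
  have hr := Real.exp_pos (l j - 1)
  have hrr : Real.exp (l j - 1) < r₀ := (Real.exp_le_exp.2 (by linarith [hl j])).trans_lt hj'
  set r := Real.exp (l j - 1) with hrd
  have hρ : 0 < min 1 (r / (100 * A + 1)) := lt_min one_pos (by positivity)
  refine meas_le_of_weak hs.weak ((isCompact_closedBall _ _).inter_left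
    (Flat.isClosed_zset hC hA hν hfl)) isOpen_thickening (self_subset_thickening hρ _)
    (by positivity) ?_
  filter_upwards [ev_lt hs.toTanSeq ha0 (-1), hφ.tendsto_atTop.eventually (eventually_gt_atTop j),
    hT₀.gd_lim _ _ A ((ev_lt hs.toTanSeq ha0 (-1)).mono fun i hi => (hg i).ratio _ ⟨hi, by norm_num⟩) hν
      hs.weak (R + 1) r r (1 / 2) hr (by norm_num)] with i hi hi' hi''
  have hc := hs0 (φ i)
  have hsub : (fun x : E3 => (√(-t (φ i)))⁻¹ • x) ⁻¹' thickening (min 1 (r / (100 * A + 1)))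
      (Zset ν ∩ closedBall 0 R) ⊆ NN O j (l j) (t (φ i)) := by
    intro y hy
    rw [mem_preimage, mem_thickening_iff] at hy
    obtain ⟨z, ⟨hz, hz'⟩, hd⟩ := hy
    obtain ⟨x, rfl⟩ : ∃ x, y = √(-t (φ i)) • x := ⟨_, (smul_inv_smul₀ hc.ne' y).symm⟩
    rw [inv_smul_smul₀ hc.ne', dist_eq_norm, lt_min_iff] at hd
    rw [mem_closedBall_zero_iff] at hz'
    have h2 : ‖x‖ ≤ R + 1 := (norm_le_norm_add_norm_sub' x z).trans (add_le_add hz' hd.1.le)
    have h4 := mk_near hν hA hr (hge z hz hz' r hr hrr) hd.2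
    have h6 := abs_le.1 (hi'' x h2 r ⟨le_rfl, le_rfl⟩).2
    refine ⟨?_, hR _ ⟨⟨(le_max_left _ _).trans_lt (ht _).1, (ht _).2⟩, hZ _⟩ _ _ fun hreg => ?_⟩
    · rw [norm_smul, Real.norm_eq_abs, abs_of_pos hc, mul_comm]
      exact mul_le_mul_of_nonneg_right (h2.trans (by exact_mod_cast hj)) hc.le
    · have e : Real.exp (lev (l j) (t (φ i)) - 1) = √(-t (φ i)) * r := by
        rw [hrd, Real.exp_sub, Real.exp_sub, exp_lev _ (ht _).2]
        ring
      have h7 := mk_le_of_reg hC ((hg i).slice (t := -1)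
        ⟨hi, by norm_num⟩).smooth.continuous hθ hr (reg_resc hc (by rwa [hs2, ← e]))
      linarith [h6.1]
  rw [hT₀.ar_resc w _ _ (hs.pos i), scal, Measure.smul_apply, Measure.map_apply (by fun_prop)
    isOpen_thickening.measurableSet, smul_eq_mul]
  simp only [Function.comp_apply, hs2]
  refine (mul_le_mul_right ((measure_mono hsub).trans (hsm _ j hi')) _).trans_eq ?_
  rw [← ENNReal.ofReal_mul (sq_nonneg _), inv_pow, Real.sq_sqrt (neg_nonneg.2 (ht _).2.le),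
    mul_left_comm, inv_mul_cancel₀ (neg_pos.2 (ht _).2).ne', mul_one]

theorem m1b (hT₀ : Tan) (hC : CylDensStmt) (h1 : CalcW) (hT : TangW) (hF : FlatW) (h : M1aW) :
    M1W := by
  intro w a Z A C ha hw
  have hc : 0 < √(-a / 20) := Real.sqrt_pos.2 (by linarith)
  obtain ⟨s, ν, hs, hν⟩ := m1b' hT₀ hC h1 hT hF h (le_of_eq (by
    rw [Real.sq_sqrt (by linarith), div_eq_iff (by linarith)]
    ring)) (h1.rescG w a Z A C hw _ hc)
  refine ⟨fun i => √(-a / 20) * s i, ν, ⟨⟨fun i => mul_pos hc (hs.pos i), ?_, hs.locFin, ?_⟩,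
    fun i => ?_⟩, hν⟩
  · simpa using hs.lim.const_mul (√(-a / 20))
  · simpa only [resc_resc] using hs.weak
  · rw [mul_pow, mul_assoc]
    exact hs.regT i

/-- [M1], with the static statements of the smooth theory as hypotheses -/
theorem m1_of (h1 : Calc) (hM : Mono) (hT₀ : Tan) (hD : CylDensStmt) (hW : WeightStmtR)
    (hC : CalcW) (hT : TangW) (hO : CoreW) (hc : CellW) (hF : FlatW) : M1W :=
  m1b hT₀ hD hC hT hF (m1a h1 hM hW hC hT hO hc)

end Vale.Agent.P218WM
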