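import Vale.Agent.P218UM.Main

/-! Pointwise estimates for the truncated weight, and the test function. -/

open MeasureTheory Set Filter Topology Metric
open scoped ENNReal NNReal RealInnerProductSpace ContDiff

namespace Vale.Agent.P218WM

open Vale.Agent.P218UA Vale.Agent.P218UD Vale.Agent.P218UM
open Vale.Agent.P218.H63 (lap hessSq)

variable {w : ℝ → E3 → ℝ} {e : E3 → ℝ} {γ : ℝ → E3 → ℝ → ℝ} {δ Λ a₀ C₀ C₁ t y₀ : ℝ} {x : E3}
  {F : Finset P218UD.Lat} {η : ℝ → ℝ}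

lemma intOn {f : ℝ → ℝ} (hf : Continuous f) (hη : Continuous η) (hz : ∀ y ≤ y₀, η y = 0) (S : Set ℝ)
    {y₁ : ℝ} (h1 : ∀ y, y₁ < y → f y = 0) : IntegrableOn (fun y => η y * f y) S := by
  refine ((hη.mul hf).integrable_of_hasCompactSupport (HasCompactSupport.intro
    (isCompact_Icc (a := y₀) (b := y₁)) fun y hy => ?_)).integrableOn
  rcases not_and_or.1 hy with h | h
  · rw [Pi.mul_apply, hz y (not_le.1 h).le, zero_mul]
  · rw [Pi.mul_apply, h1 y (not_le.1 h), mul_zero]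

/-- the integrated estimate, with the gain -/
lemma integral_heat_le (w : ℝ → E3 → ℝ) (ht : -1 / 4 ≤ t) (ht0 : t < 0)
    (hn : ‖gradient (w t) x‖ = 1)
    (h : ∀ y, ContDiffAt ℝ 2 (fun p : ℝ × E3 × ℝ => γ p.1 p.2.1 p.2.2) (t, x, y))
    (h0 : ∀ y, 0 ≤ γ t x y) {S : Set ℝ} (hS : MeasurableSet S) (hη : Continuous η)
    (hη1 : ∀ y, 0 ≤ η y ∧ η y ≤ 1) (hz : ∀ y ≤ y₀, η y = 0)
    {B₁ B₃ : ℝ} (hB₁ : 0 ≤ B₁) (hB₃ : 0 ≤ B₃)
    (h1 : ∫⁻ y in Iic (lev a₀ t), ENNReal.ofReal (heat w (fun s z => γ s z y) t x)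
      ≤ ENNReal.ofReal B₁)
    (h3 : ∫⁻ y in Iic (lev a₀ t), ‖gradient (fun z => γ t z y) x‖ₑ ≤ ENNReal.ofReal B₃) :
    ∫ y in S, η y * heat w (fun s z => gam γ a₀ s z y) t x ≤ B₁ + 20 * B₃ ∧
      ((∀ y ∈ Icc (lev a₀ t - 1) (lev a₀ t), y ∈ S ∧ η y = 1 ∧ γ t x y = 1) →
        ∫ y in S, η y * heat w (fun s z => gam γ a₀ s z y) t x
          ≤ B₁ + 20 * B₃ - ek t x / (2 * -t)) := by
  set a := lev a₀ t with ha
  have cs : Continuous fun y => s0 (y - a) := contDiff_s0.continuous.comp (by fun_prop)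
  have cs' : Continuous fun y => deriv s0 (y - a) :=
    (contDiff_s0.continuous_deriv (by norm_num)).comp (by fun_prop)
  have cg : Continuous (γ t x) := continuous_iff_continuousAt.2 fun y => (cd_y (h y)).continuousAt
  have z1 : ∀ y, a < y → s0 (y - a) = 0 := fun y hy => s0_eq_zero (by linarith)
  have z2 : ∀ y, a < y → deriv s0 (y - a) = 0 := fun y hy => by
    have : s0 =ᶠ[𝓝 (y - a)] fun _ => 0 := by
      filter_upwards [lt_mem_nhds (show 0 < y - a by linarith)] with u hu using s0_eq_zero hu.le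
    rw [this.deriv_eq, deriv_const]
  have i1 := intOn (y₁ := a) (f := fun y => s0 (y - a) * max (heat w (fun s z => γ s z y) t x) 0)
    (cs.mul ((continuous_heat w h).max continuous_const)) hη hz S
      fun y hy => by simp only [z1 y hy, zero_mul]
  have i2 := intOn (y₁ := a) (f := fun y => s0 (y - a) * ‖gradient (fun z => γ t z y) x‖)
    (cs.mul (continuous_gradient_y h).norm) hη hz S fun y hy => by simp only [z1 y hy, zero_mul]
  have i3 := intOn (y₁ := a) (f := fun y => γ t x y * deriv s0 (y - a)) (cg.mul cs') hη hz S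
    fun y hy => by simp only [z2 y hy, mul_zero]
  have i4 : IntegrableOn (fun y => η y * heat w (fun s z => gam γ a₀ s z y) t x) S := by
    refine intOn (y₁ := a) (continuous_heat w fun y => contDiffAt_gam ht0 (h y)) hη hz S
      fun y hy => ?_
    have h4 : ∀ᶠ s in 𝓝 t, lev a₀ s < y :=
      (contDiffAt_lev a₀ ht0).continuousAt.eventually (gt_mem_nhds hy)
    have h5 : (fun s => gam γ a₀ s x y) =ᶠ[𝓝 t] fun _ => 0 := h4.mono fun s hs => gam_eq_zero hs.le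
    have h6 : (fun z => gam γ a₀ t z y) = fun _ => 0 := funext fun z => gam_eq_zero hy.le
    simp only [heat]
    rw [h5.deriv_eq, h6, trT_hs contDiffAt_const]
    simp
  have k : ∀ y {u : ℝ}, 0 ≤ u → 0 ≤ η y * (s0 (y - a) * u) ∧ η y * (s0 (y - a) * u) ≤ u :=
    fun y u hu => ⟨mul_nonneg (hη1 y).1 (mul_nonneg (s0_nonneg _) hu), (mul_le_of_le_one_left
      (mul_nonneg (s0_nonneg _) hu) (hη1 y).2).trans (mul_le_of_le_one_left hu (s0_le_one _))⟩
  have b1 := setIntegral_le_of_lintegral hS i1 hB₁ (fun y _ => by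
    refine (ENNReal.ofReal_le_ofReal (k y (le_max_right _ _)).2).trans ?_
    rw [ENNReal.ofReal_max, ENNReal.ofReal_zero, max_eq_left zero_le])
    (fun y hy => by rw [z1 y hy, zero_mul, mul_zero]) (fun y => (k y (le_max_right _ _)).1) h1
  have b2 := setIntegral_le_of_lintegral hS i2 hB₃ (fun y _ => by
    refine (ENNReal.ofReal_le_ofReal (k y (norm_nonneg _)).2).trans ?_
    rw [ofReal_norm])
    (fun y hy => by rw [z1 y hy, zero_mul, mul_zero]) (fun y => (k y (norm_nonneg _)).1) h3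
  have b0 : ∫ y in S, η y * heat w (fun s z => gam γ a₀ s z y) t x
      ≤ B₁ + 20 * B₃ + (∫ y in S, η y * (γ t x y * deriv s0 (y - a))) * (ek t x / (2 * -t)) := by
    have h4 := setIntegral_mono_on i4 ((i1.add (i2.const_mul 20)).add (i3.mul_const
      (ek t x / (2 * -t)))) hS fun y _ => (mul_le_mul_of_nonneg_left
        (heat_gam_le w ht ht0 hn (h y) (h0 y)) (hη1 y).1).trans
        (le_of_eq (by simp only [Pi.add_apply, ← ha]; ring))
    rw [integral_add' (i1.add (i2.const_mul 20)) (i3.mul_const _),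
      integral_add' i1 (i2.const_mul 20), integral_const_mul, integral_mul_const] at h4
    linarith
  have hk : 0 ≤ ek t x / (2 * -t) := div_nonneg (ek_nonneg _ _) (by linarith)
  have hneg : ∀ y, η y * (γ t x y * deriv s0 (y - a)) ≤ 0 := fun y => mul_nonpos_of_nonneg_of_nonpos
    (hη1 y).1 (mul_nonpos_of_nonneg_of_nonpos (h0 y) (deriv_s0_nonpos _))
  constructor
  · have := mul_nonpos_of_nonpos_of_nonneg
      (setIntegral_nonpos (μ := volume) hS fun y _ => hneg y) hk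
    linarith
  · intro hI
    have h4 : ∫ y in S, η y * (γ t x y * deriv s0 (y - a))
        ≤ ∫ y in Icc (a - 1) a, η y * (γ t x y * deriv s0 (y - a)) := by
      have := setIntegral_mono_set (s := Icc (a - 1) a) i3.neg
        (Eventually.of_forall fun y => neg_nonneg.2 (hneg y))
        (LE.le.eventuallyLE fun y hy => (hI y hy).1)
      simp only [Pi.neg_apply, integral_neg] at this
      linarith
    have h5 : ∫ y in Icc (a - 1) a, η y * (γ t x y * deriv s0 (y - a)) = -1 := by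
      rw [setIntegral_congr_fun measurableSet_Icc (g := fun y => deriv s0 (y - a))
        fun y hy => by simp only [(hI y hy).2.1, (hI y hy).2.2, one_mul],
        integral_Icc_eq_integral_Ioc,
        ← intervalIntegral.integral_of_le (by linarith), intervalIntegral.integral_comp_sub_right,
        intervalIntegral.integral_deriv_eq_sub
          (fun u _ => contDiff_s0.differentiable (by norm_num) u)
          ((contDiff_s0.continuous_deriv (by norm_num)).intervalIntegrable _ _),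
        s0_eq_zero (by linarith), s0_eq_one (by linarith)]
      norm_num
    have h6 := mul_le_mul_of_nonneg_right (h4.trans h5.le) hk
    linarith

lemma pw_bracket (hδ : 0 < δ) (ht : -1 / 4 ≤ t) (ht0 : t < 0) (hn : ‖gradient (w t) x‖ = 1)
    (he : ∀ x, 0 ≤ e x) (hC₁ : 0 ≤ C₁)
    (hs : ∀ Q ∈ F, ContDiffAt ℝ ∞ (bbar w (zQ Q) (rQ Q)) t)
    (h : ∀ y, ContDiffAt ℝ 2 (fun p : ℝ × E3 × ℝ => γ p.1 p.2.1 p.2.2) (t, x, y))
    (h0 : ∀ y, 0 ≤ γ t x y)
    (hone : ∀ y, (∀ Q ∈ F, (Q.1 : ℝ) < y + 4 → bQ w δ Q t = 0 ∨ Λ * rQ Q ≤ ‖x - zQ Q‖) →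
      γ t x y = 1)
    (h1 : ∫⁻ y in Iic (lev a₀ t), ENNReal.ofReal (heat w (fun s z => γ s z y) t x)
      ≤ ENNReal.ofReal (∑ Q ∈ act w (δ / 2) Λ a₀ F t x,
        (e ((rQ Q)⁻¹ • (x - zQ Q)) / rQ Q ^ 2 + C₁ * |deriv (bQ w δ Q) t|)))
    (h3 : ∫⁻ y in Iic (lev a₀ t), ‖gradient (fun z => γ t z y) x‖ₑ
      ≤ ENNReal.ofReal (∑ Q ∈ act w (δ / 2) Λ a₀ F t x, C₁ / rQ Q))
    {S : Set ℝ} (hS : MeasurableSet S) (hη : Continuous η) (hη1 : ∀ y, 0 ≤ η y ∧ η y ≤ 1)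
    (hz : ∀ y ≤ y₀, η y = 0) (ho : ∀ y, lev a₀ t - 1 ≤ y → η y = 1)
    (hup : ∀ y ∈ S, ∀ y', y ≤ y' → y' ∈ S) {X Y : ℝ}
    (hX : X = (∫ y in S, η y * heat w (fun s z => gam γ a₀ s z y) t x) + C₀ *
      (2 * ∑ Q ∈ act w (δ / 2) Λ a₀ F t x, e ((rQ Q)⁻¹ • (x - zQ Q)) / rQ Q ^ 2 + 36))
    (hY : Y = 36 * C₀ + ∑ Q ∈ act w (δ / 2) Λ a₀ F t x,
      hQ w e (1 + 2 * C₀) (C₁ * (CXi / δ)) (20 * C₁) Q t x) :
    X ≤ Y ∧ (lev a₀ t - 1 ∈ S → X + ek t x / (2 * -t) ≤ Y) := by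
  have hp : 0 < -t := by linarith
  set G := act w (δ / 2) Λ a₀ F t x with hG
  have hE : ∀ Q : P218UD.Lat, 0 ≤ e ((rQ Q)⁻¹ • (x - zQ Q)) / rQ Q ^ 2 := fun Q =>
    div_nonneg (he _) (sq_nonneg _)
  obtain ⟨k1, k2⟩ := integral_heat_le w ht ht0 hn h h0 hS hη hη1 hz
    (Finset.sum_nonneg fun Q _ => add_nonneg (hE Q) (mul_nonneg hC₁ (abs_nonneg _)))
    (Finset.sum_nonneg fun Q _ => div_nonneg hC₁ (rQ_pos Q).le) h1 h3
  have key : ∑ Q ∈ G, (e ((rQ Q)⁻¹ • (x - zQ Q)) / rQ Q ^ 2 + C₁ * |deriv (bQ w δ Q) t|)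
      + 20 * ∑ Q ∈ G, C₁ / rQ Q + C₀ * (2 * ∑ Q ∈ G, e ((rQ Q)⁻¹ • (x - zQ Q)) / rQ Q ^ 2)
      + ∑ Q ∈ G, 1 / (2 * -t)
      ≤ ∑ Q ∈ G, hQ w e (1 + 2 * C₀) (C₁ * (CXi / δ)) (20 * C₁) Q t x := by
    simp only [Finset.mul_sum, ← Finset.sum_add_distrib]
    refine Finset.sum_le_sum fun Q hQ' => ?_
    have h4 := mul_le_mul_of_nonneg_left (abs_deriv_bQ hδ (hs Q (act_subset hQ'))) hC₁
    have e1 : 20 * C₁ / rQ Q = 20 * (C₁ / rQ Q) := by ring
    rw [hQ, e1]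
    linarith
  have h5 : 0 ≤ ∑ Q ∈ G, 1 / (2 * -t) := Finset.sum_nonneg fun Q _ => by positivity
  refine ⟨by linarith, fun hl => ?_⟩
  rcases G.eq_empty_or_nonempty with hG0 | ⟨Q₀, hQ₀⟩
  · have h6 := k2 fun y hy => ⟨hup _ hl y hy.1, ho y hy.1, hone y fun Q hQ' hy' => by
      by_contra h7
      rw [not_or, not_le] at h7
      exact Finset.eq_empty_iff_forall_notMem.1 hG0 Q
        (mem_act hδ Q hQ' (by linarith [hy.2]) h7.1 h7.2)⟩
    linarith
  · have h6 : 1 / (2 * -t) ≤ ∑ Q ∈ G, 1 / (2 * -t) :=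
      Finset.single_le_sum (f := fun _ => 1 / (2 * -t)) (fun Q _ => by positivity) hQ₀
    have h7 : ek t x / (2 * -t) ≤ 1 / (2 * -t) :=
      div_le_div_of_nonneg_right (ek_le_one ht x) (by positivity)
    linarith

/-- below the level `ys` the weight is almost decreasing -/
lemma deriv_gam_low (hδ : 0 < δ) (ht : -1 / 4 ≤ t) {y ys E c : ℝ}
    (h : ContDiffAt ℝ 2 (fun p : ℝ × E3 × ℝ => γ p.1 p.2.1 p.2.2) (t, x, y))
    (h0 : ∀ y, 0 ≤ γ t x y ∧ γ t x y ≤ 1) (hE : 0 ≤ E) (hc : c ≤ 1) (hy : y ≤ ys)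
    (hs : ys ≤ lev a₀ t) (hg : deriv (γ t x) y - c * γ t x y ≤ Real.exp (2 * y) * E)
    (hone : (∀ Q ∈ F, (Q.1 : ℝ) < y + 4 → bQ w δ Q t = 0 ∨ Λ * rQ Q ≤ ‖x - zQ Q‖) → γ t x y = 1) :
    deriv (gam γ a₀ t x) y ≤ Real.exp (2 * y) * (E + ∑ Q ∈ act w (δ / 2) Λ a₀
      (F.filter fun Q => (Q.1 : ℝ) < ys + 4) t x, Real.exp 8 / rQ Q ^ 2) := by
  classical
  have h1 := ((cd_y h).differentiableAt (by norm_num)).hasDerivAt
  have h2 : HasDerivAt (fun y => s0 (y - lev a₀ t)) (deriv s0 (y - lev a₀ t)) y :=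
    (contDiff_s0.differentiable (by norm_num) _).hasDerivAt.comp_sub_const y _
  have h3 : HasDerivAt (gam γ a₀ t x) _ y := h1.mul (h2.mul_const (ek t x))
  have h4 : γ t x y * (deriv s0 (y - lev a₀ t) * ek t x) ≤ 0 := mul_nonpos_of_nonneg_of_nonpos
    (h0 y).1 (mul_nonpos_of_nonpos_of_nonneg (deriv_s0_nonpos _) (ek_nonneg _ _))
  have h5 : 0 ≤ s0 (y - lev a₀ t) * ek t x := mul_nonneg (s0_nonneg _) (ek_nonneg _ _)
  have h6 : s0 (y - lev a₀ t) * ek t x ≤ 1 :=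
    mul_le_one₀ (s0_le_one _) (ek_nonneg _ _) (ek_le_one ht x)
  have hp : ∀ Q : P218UD.Lat, 0 ≤ Real.exp 8 / rQ Q ^ 2 := fun Q => by positivity
  set S := ∑ Q ∈ act w (δ / 2) Λ a₀ (F.filter fun Q => (Q.1 : ℝ) < ys + 4) t x,
    Real.exp 8 / rQ Q ^ 2 with hS
  have hS0 : 0 ≤ S := Finset.sum_nonneg fun Q _ => hp Q
  have h7 : deriv (γ t x) y ≤ Real.exp (2 * y) * (E + S) := by
    by_cases h8 : γ t x y = 1
    · rw [IsLocalMax.deriv_eq_zero (Eventually.of_forall fun u => (h0 u).2.trans_eq h8.symm)]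
      positivity
    · obtain ⟨Q, q1, q2, q3⟩ : ∃ Q ∈ F, (Q.1 : ℝ) < y + 4 ∧
          ¬(bQ w δ Q t = 0 ∨ Λ * rQ Q ≤ ‖x - zQ Q‖) := by
        by_contra! h9
        exact h8 (hone h9)
      rw [not_or, not_le] at q3
      have q4 : Real.exp 8 / rQ Q ^ 2 ≤ S := Finset.single_le_sum (fun Q _ => hp Q)
        (mem_act hδ Q (Finset.mem_filter.2 ⟨q1, by linarith⟩) (by linarith) q3.1 q3.2)
      have q5 : 1 ≤ Real.exp (2 * y) * (Real.exp 8 / rQ Q ^ 2) := by
        rw [rQ, ← Real.exp_nat_mul, ← Real.exp_sub, ← Real.exp_add]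
        exact Real.one_le_exp (by push_cast; linarith)
      nlinarith [mul_le_mul_of_nonneg_left q4 (Real.exp_pos (2 * y)).le, h0 y]
  rw [h3.deriv]
  have h8 : 0 ≤ Real.exp (2 * y) * (E + S) := by positivity
  nlinarith

/-- a cutoff in time which rises on `[u, v]` and falls on `[t₁, t₁ / 2]` -/
noncomputable def chi (u v t₁ t : ℝ) : ℝ := Real.smoothTransition ((t - u) / (v - u)) * fall t₁ t

/-- the test function -/
noncomputable def ps (u v t₁ t : ℝ) (x : E3) : ℝ :=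
  chi u v t₁ t * (Phi t x * Real.smoothTransition (4 - ‖x‖ ^ 2))

variable {u v t₁ : ℝ}

lemma contDiff_chi : ContDiff ℝ 2 (chi u v t₁) :=
  (Real.smoothTransition.contDiff.comp (by fun_prop)).mul contDiff_fall

lemma chi_mem : 0 ≤ chi u v t₁ t ∧ chi u v t₁ t ≤ 1 :=
  ⟨mul_nonneg (Real.smoothTransition.nonneg _) (Real.smoothTransition.nonneg _), mul_le_one₀
    (Real.smoothTransition.le_one _) (Real.smoothTransition.nonneg _)
    (Real.smoothTransition.le_one _)⟩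

lemma deriv_chi (h : u < v) : ∃ B : ℝ, 0 < B ∧ ∀ t₁ < 0, ∀ t,
    deriv (chi u v t₁) t ≤ B ∧ (v < t → deriv (chi u v t₁) t ≤ 0) := by
  have c : ContDiff ℝ 1 fun t => Real.smoothTransition ((t - u) / (v - u)) :=
    Real.smoothTransition.contDiff.comp (by fun_prop)
  have o : ∀ s, v ≤ s → Real.smoothTransition ((s - u) / (v - u)) = 1 := fun s hs =>
    Real.smoothTransition.one_of_one_le ((one_le_div (by linarith)).2 (by linarith))
  obtain ⟨B, hB, hB'⟩ := exists_deriv_bound c (fun s hs => Real.smoothTransition.zero_of_nonpos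
    (div_nonpos_of_nonpos_of_nonneg (sub_nonpos.2 hs) (by linarith))) o
  refine ⟨B, hB, fun t₁ h₁ t => ?_⟩
  unfold chi
  rw [deriv_fun_mul (c.differentiable one_ne_zero t) (contDiff_fall.differentiable two_ne_zero t)]
  have h2 : Real.smoothTransition ((t - u) / (v - u)) * deriv (fall t₁) t ≤ 0 :=
    mul_nonpos_of_nonneg_of_nonpos (Real.smoothTransition.nonneg _) (deriv_fall_nonpos h₁)
  have h3 : 0 ≤ fall t₁ t := Real.smoothTransition.nonneg _
  have h4 : fall t₁ t ≤ 1 := Real.smoothTransition.le_one _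
  refine ⟨by nlinarith [(le_abs_self _).trans (hB' t)], fun ht => ?_⟩
  have h5 : (fun t => Real.smoothTransition ((t - u) / (v - u))) =ᶠ[𝓝 t] fun _ => 1 := by
    filter_upwards [lt_mem_nhds ht] with s hs using o s hs.le
  rw [h5.deriv_eq, deriv_const]
  linarith

lemma ps_eq_zero (h₀ : u < v) (h₁ : t₁ < 0) {p : ℝ × E3}
    (h : p ∉ Icc u (t₁ / 2) ×ˢ closedBall (0 : E3) 2) : ps u v t₁ p.1 p.2 = 0 := by
  by_contra h0
  refine h ⟨⟨?_, ?_⟩, ?_⟩
  · by_contra h2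
    exact h0 (by rw [ps, chi, Real.smoothTransition.zero_of_nonpos (div_nonpos_of_nonpos_of_nonneg
      (by linarith) (by linarith)), zero_mul, zero_mul])
  · by_contra h2
    exact h0 (by rw [ps, chi, fall_zero h₁ (not_le.1 h2).le, mul_zero, zero_mul])
  · by_contra h2
    rw [mem_closedBall_zero_iff, not_le] at h2
    exact h0 (by rw [ps, Real.smoothTransition.zero_of_nonpos (x := 4 - ‖p.2‖ ^ 2)
      (by nlinarith), mul_zero, mul_zero])

lemma tsupport_ps (h₀ : u < v) (h₁ : t₁ < 0) :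
    tsupport (fun p : ℝ × E3 => ps u v t₁ p.1 p.2) ⊆ Icc u (t₁ / 2) ×ˢ closedBall (0 : E3) 2 :=
  closure_minimal (fun _ hp => by_contra fun h => hp (ps_eq_zero h₀ h₁ h))
    (isClosed_Icc.prod isClosed_closedBall)

lemma cpt_ps (h₀ : u < v) (h₁ : t₁ < 0) :
    HasCompactSupport fun p : ℝ × E3 => ps u v t₁ p.1 p.2 :=
  (isCompact_Icc.prod (isCompact_closedBall _ _)).of_isClosed_subset (isClosed_tsupport _)
    (tsupport_ps h₀ h₁)

lemma contDiff_ps (h₁ : t₁ < 0) : ContDiff ℝ 2 fun p : ℝ × E3 => ps u v t₁ p.1 p.2 := by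
  refine contDiff_iff_contDiffAt.2 fun p => ?_
  rcases lt_or_ge p.1 0 with h | h
  · exact (contDiff_chi.comp contDiff_fst).contDiffAt.mul
      ((contDiffAt_Phi h p.2).mul (Real.smoothTransition.contDiff.comp
        (contDiff_const.sub ((contDiff_norm_sq ℝ).comp contDiff_snd))).contDiffAt)
  · refine (contDiffAt_const (c := (0 : ℝ))).congr_of_eventuallyEq ?_
    filter_upwards [continuousAt_fst.eventually (lt_mem_nhds (by linarith : t₁ / 2 < p.1))]
      with q hq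
    rw [ps, chi, fall_zero h₁ hq.le, mul_zero, zero_mul]

lemma ps_nonneg (h₁ : t₁ < 0) (t : ℝ) (x : E3) : 0 ≤ ps u v t₁ t x := by
  rcases lt_or_ge t 0 with h | h
  · exact mul_nonneg chi_mem.1 (mul_nonneg (Phi_pos h x).le (Real.smoothTransition.nonneg _))
  · rw [ps, chi, fall_zero h₁ (by linarith), mul_zero, zero_mul]

lemma ps_le (ht : t < 0) (x : E3) : ps u v t₁ t x ≤ Phi t x := by
  have h2 := Phi_pos ht x
  exact (mul_le_of_le_one_left (mul_nonneg h2.le (Real.smoothTransition.nonneg _)) chi_mem.2).trans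
    (mul_le_of_le_one_right h2.le (Real.smoothTransition.le_one _))

lemma ps_eq (h₀ : u < v) (h₁ : t₁ < 0) (ht : t ∈ Icc v t₁) (hx : ‖x‖ ^ 2 ≤ 3) :
    ps u v t₁ t x = Phi t x := by
  rw [ps, chi, Real.smoothTransition.one_of_one_le ((one_le_div (by linarith)).2
    (by linarith [ht.1])), fall_one h₁ ht.2,
    Real.smoothTransition.one_of_one_le (x := 4 - ‖x‖ ^ 2) (by linarith)]
  ring

lemma adj_ps_zero (w : ℝ → E3 → ℝ) (h₀ : u < v) (h₁ : t₁ < 0) {p : ℝ × E3}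
    (h : p ∉ Icc u (t₁ / 2) ×ˢ closedBall (0 : E3) 2) : adj w (ps u v t₁) p.1 p.2 = 0 := by
  rw [adj_congr w (g := fun _ _ => 0), adj_zero]
  filter_upwards [(isClosed_Icc.prod isClosed_closedBall).isOpen_compl.mem_nhds h] with q hq
    using ps_eq_zero h₀ h₁ hq

lemma adj_ps_le (w : ℝ → E3 → ℝ) (ht : t < 0) (hx : ‖x‖ ^ 2 < 3) (hn : ‖gradient (w t) x‖ = 1) :
    adj w (ps u v t₁) t x ≤ deriv (chi u v t₁) t * Phi t x := by
  rw [adj_congr w (g := fun s y => chi u v t₁ s * Phi s y), adj_time_mul w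
    (contDiff_chi.differentiable two_ne_zero t) (contDiffAt_Phi ht x), adj_Phi w ht hn]
  · nlinarith [mul_nonneg (chi_mem (u := u) (v := v) (t₁ := t₁) (t := t)).1 (mul_nonneg
      (sq_nonneg (lap (w t) x - ⟪x, gradient (w t) x⟫ / (2 * -t))) (Phi_pos ht x).le)]
  · filter_upwards [(by fun_prop : ContinuousAt (fun p : ℝ × E3 => ‖p.2‖ ^ 2) (t, x)).eventually
      (gt_mem_nhds hx)] with q hq
    rw [ps, Real.smoothTransition.one_of_one_le (x := 4 - ‖q.2‖ ^ 2) (by linarith), mul_one]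

lemma gg_adj {B y₀' : ℝ} (ht : t ∈ Ioo (-1 / 4 : ℝ) 0) (hn : ‖gradient (w t) x‖ = 1)
    (h : ∀ y, 0 ≤ γ t x y ∧ γ t x y ≤ 1) (hη1 : ∀ y, 0 ≤ η y ∧ η y ≤ 1) {S : Set ℝ}
    (hS : MeasurableSet S) (h0' : t ≤ v → ∀ y ∈ S, y₀' < y) (hB : 0 ≤ B)
    (hB' : deriv (chi u v t₁) t ≤ B ∧ (v < t → deriv (chi u v t₁) t ≤ 0)) :
    (∫ y in S, η y * gam γ a₀ t x y) * adj w (ps u v t₁) t x ≤ Phi t x * (B * |a₀ - y₀'|) := by
  have hP := Phi_pos ht.2 x
  rcases le_or_gt 2 (‖x‖ ^ 2) with h1 | h1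
  · have : ∫ y in S, η y * gam γ a₀ t x y = 0 := by simp [gam, ek_eq_zero ht.1.le h1]
    rw [this, zero_mul]
    positivity
  · have a2 := adj_ps_le (u := u) (v := v) (t₁ := t₁) w ht.2 (x := x) (by linarith) hn
    have a3 : 0 ≤ ∫ y in S, η y * gam γ a₀ t x y :=
      integral_nonneg fun y => mul_nonneg (hη1 y).1 (gam_nonneg (h y).1)
    refine (mul_le_mul_of_nonneg_left a2 a3).trans ?_
    rcases lt_or_ge v t with h' | h'
    · exact (mul_nonpos_of_nonneg_of_nonpos a3 (mul_nonpos_of_nonpos_of_nonneg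
        (hB'.2 h') hP.le)).trans (by positivity)
    · have a4 := (integral_gam_le (a₀ := a₀) (γ := fun t x y => η y * γ t x y) ht.1.le ht.2
        (fun y => ⟨mul_nonneg (hη1 y).1 (h y).1, mul_le_one₀ (hη1 y).2 (h y).1 (h y).2⟩) hS
        (h0' h')).2
      simp only [gam, mul_assoc] at a3 a4 ⊢
      calc _ ≤ (∫ y in S, η y * (γ t x y * (s0 (y - lev a₀ t) * ek t x))) * (B * Phi t x) := by
            gcongr
            exact hB'.1
        _ ≤ |a₀ - y₀'| * (B * Phi t x) := by gcongr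
        _ = _ := by ring

end Vale.Agent.P218WM
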