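import Vale.Agent.P218WM.Loss
import Vale.Agent.P218WM.PW

/-! The weighted estimate for weak flows. -/

open MeasureTheory Set Filter Topology Metric
open scoped ENNReal NNReal RealInnerProductSpace ContDiff

namespace Vale.Agent.P218WM

open Vale.Agent.P218UA Vale.Agent.P218UD Vale.Agent.P218UM Vale.Agent.P218WA
open Vale.Agent.P218.H63 (lap hessSq)

variable {w : ℝ → E3 → ℝ} {e : E3 → ℝ} {δ Λ a₀ C₀ C₁ A : ℝ} {I Z : Set ℝ}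

/-- gain is at most loss, up to an error -/
theorem lint_le_add {α : Type*} [MeasurableSpace α] {μ : Measure α} {f g l : α → ℝ} {η : ℝ}
    (hf : Integrable f μ) (hη : 0 ≤ η) (h0 : -η ≤ ∫ p, f p ∂μ)
    (h : ∀ᵐ p ∂μ, 0 ≤ g p ∧ 0 ≤ l p ∧ f p + g p ≤ l p) :
    ∫⁻ p, ENNReal.ofReal (g p) ∂μ ≤ ∫⁻ p, ENNReal.ofReal (l p) ∂μ + ENNReal.ofReal η := by
  have hm := hf.aemeasurable
  have h1 : ∫⁻ p, ENNReal.ofReal (f p) ∂μ ≠ ⊤ := hf.lintegral_lt_top.ne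
  have h2 : ∫⁻ p, ENNReal.ofReal (-f p) ∂μ ≠ ⊤ := hf.neg.lintegral_lt_top.ne
  have h3 : ∫⁻ p, ENNReal.ofReal (-f p) ∂μ
      ≤ ENNReal.ofReal η + ∫⁻ p, ENNReal.ofReal (f p) ∂μ := by
    rw [integral_eq_lintegral_pos_part_sub_lintegral_neg_part hf] at h0
    rw [← ENNReal.ofReal_toReal h1, ← ENNReal.ofReal_toReal h2,
      ← ENNReal.ofReal_add hη ENNReal.toReal_nonneg]
    exact ENNReal.ofReal_le_ofReal (by linarith)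
  have h4 : ∫⁻ p, (ENNReal.ofReal (g p) + ENNReal.ofReal (f p)) ∂μ
      ≤ ∫⁻ p, (ENNReal.ofReal (l p) + ENNReal.ofReal (-f p)) ∂μ := by
    refine lintegral_mono_ae (h.mono fun p ⟨hg, hl, hp⟩ => ?_)
    rcases le_total 0 (f p) with hf0 | hf0
    · rw [← ENNReal.ofReal_add hg hf0]
      exact (ENNReal.ofReal_le_ofReal (by linarith)).trans le_self_add
    · rw [ENNReal.ofReal_of_nonpos hf0, add_zero, ← ENNReal.ofReal_add hl (by linarith)]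
      exact ENNReal.ofReal_le_ofReal (by linarith)
  have hm' : AEMeasurable (fun p => ENNReal.ofReal (-f p)) μ := hm.neg.ennreal_ofReal
  rw [lintegral_add_right' _ hm.ennreal_ofReal, lintegral_add_right' _ hm'] at h4
  exact (ENNReal.add_le_add_iff_right h1).1
    (h4.trans ((add_le_add le_rfl h3).trans_eq (add_assoc _ _ _).symm))

lemma integrable_mul_q (hC : CalcW) (hw : IsW0 w I Z A) {ψ q : ℝ × E3 → ℝ} (h1 : Continuous ψ)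
    (h2 : HasCompactSupport ψ) (h3 : tsupport ψ ⊆ I ×ˢ univ) (hq : Measurable q)
    (hqB : ∃ B, ∀ p, 0 ≤ q p ∧ q p ≤ B) (c : ℝ) :
    Integrable (fun p => ψ p * (c * q p)) (stm w I) := by
  obtain ⟨Bq, hBq⟩ := hqB
  obtain ⟨Bp, hBp⟩ := h1.bounded_above_of_compact_support h2
  refine (integrableOn_iff_integrable_of_support_subset (s := tsupport ψ) fun p hp =>
    by_contra fun h => hp (by simp only [image_eq_zero_of_notMem_tsupport h, zero_mul])).1 ?_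
  refine Measure.integrableOn_of_bounded (M := Bp * (‖c‖ * Bq)) (hC.stm_fin w _ Z A hw _ h2 h3).ne
    (h1.measurable.mul (hq.const_mul _)).aestronglyMeasurable (Eventually.of_forall fun p => ?_)
  rw [norm_mul, norm_mul, Real.norm_of_nonneg (hBq p).1]
  exact mul_le_mul (hBp p) (mul_le_mul_of_nonneg_left (hBq p).2 (norm_nonneg _))
    (mul_nonneg (norm_nonneg _) (hBq p).1) ((norm_nonneg _).trans (hBp p))

lemma meas_Om {θ σ : ℝ}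
    (h : IsOpen {p : ℝ × E3 × ℝ | p.1 ∈ I \ Z ∧ p.2.2 ∈ Om w I A σ θ p.1 p.2.1}) {t : ℝ}
    (ht : t ∈ I \ Z) (x : E3) : MeasurableSet (Om w I A σ θ t x) := by
  have h1 := (h.preimage (by fun_prop : Continuous fun y : ℝ => (t, x, y))).measurableSet
  exact (Set.ext fun y => ⟨fun h => h.2, fun h => ⟨ht, h⟩⟩ : (fun y : ℝ => (t, x, y)) ⁻¹'
    {p : ℝ × E3 × ℝ | p.1 ∈ I \ Z ∧ p.2.2 ∈ Om w I A σ θ p.1 p.2.1} = Om w I A σ θ t x) ▸ h1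

/-- the last conclusion of `CoreW` -/
def CoreAt (w : ℝ → E3 → ℝ) (I : Set ℝ) (A θ σ δ c C : ℝ) (ψ : ℝ → E3 → ℝ) (η ys y₀ : ℝ)
    (h : ℝ → ℝ) : Prop :=
  ∀ (J : Set ℝ) (γ : ℝ → E3 → ℝ → ℝ) (q : ℝ × E3 → ℝ) (y₁ : ℝ), IsOpen J → J ⊆ I →
    tsupport (fun p : ℝ × E3 => ψ p.1 p.2) ⊆ J ×ˢ univ →
    ContDiffOn ℝ 2 (fun p : ℝ × E3 × ℝ => γ p.1 p.2.1 p.2.2) (J ×ˢ univ) →
    (∀ t ∈ J, ∀ x y, 0 ≤ γ t x y ∧ γ t x y ≤ 1) →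
    (∀ t ∈ J, ∀ x y, y₁ ≤ y → γ t x y = 0) →
    Measurable q → (∃ B, ∀ p, 0 ≤ q p ∧ q p ≤ B) →
    (∀ p ∈ tsupport (fun p : ℝ × E3 => ψ p.1 p.2), w p.1 p.2 = 0 → ∀ y, y₀ ≤ y →
      ((p.1, p.2, y) ∈ closure {p' : ℝ × E3 × ℝ | p'.1 ∈ J ∧ γ p'.1 p'.2.1 p'.2.2 ≠ 0} →
        Quiet w I δ p.1 p.2 y) ∧
      ‖gradient (fun x => γ p.1 x y) p.2‖ ^ 2 ≤ γ p.1 p.2 y * q p ∧
      deriv (γ p.1 p.2) y - c * γ p.1 p.2 y ≤ Real.exp (2 * y) * q p ∧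
      (y ≤ ys → deriv (γ p.1 p.2) y ≤ Real.exp (2 * y) * q p)) →
    Integrable (fun p : ℝ × E3 => GG w I A σ θ (fun t x y => h y * γ t x y) p.1 p.2
      * adj w ψ p.1 p.2) (stm w I) ∧
    Integrable (fun p : ℝ × E3 => ψ p.1 p.2 * ∫ y in Om w I A σ θ p.1 p.2,
      h y * heat w (fun t x => γ t x y) p.1 p.2) (stm w I) ∧
    -η ≤ ∫ p, (GG w I A σ θ (fun t x y => h y * γ t x y) p.1 p.2 * adj w ψ p.1 p.2
      + ψ p.1 p.2 * ((∫ y in Om w I A σ θ p.1 p.2,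
        h y * heat w (fun t x => γ t x y) p.1 p.2) + C * q p)) ∂(stm w I)

lemma Phi_le_inv {t t₁ : ℝ} (h₁ : t₁ < 0) (ht : t ≤ t₁ / 2) (x : E3) : Phi t x ≤ 1 / -t₁ :=
  div_le_div₀ zero_le_one (Real.exp_le_one_iff.2 (div_nonpos_of_nonpos_of_nonneg
    (neg_nonpos.2 (sq_nonneg _)) (by linarith))) (by linarith) (by nlinarith [Real.pi_gt_three])

theorem step (hC : CalcW) (hc : CellW) {a θ σ c R t₀ t₁ u v B y₀ y₀' ys : ℝ} {η : ℝ → ℝ}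
    (ha : a ≤ -20) (hw : IsW0 w (Ioo a 0) Z A) (hδ : 0 < δ) (hC₀ : 0 ≤ C₀) (hC₁ : 0 ≤ C₁)
    (ha₃ : a₀ ≤ -4) (hc1 : c ≤ 1) (he : Measurable e) (he0 : ∀ x, 0 ≤ e x ∧ e x ≤ C₁)
    (hγ : WtAt c Λ C₁ e) (hineq : CoreAt w (Ioo a 0) A θ σ δ c C₀ (ps u v t₁) 1 ys y₀ η)
    (hη : Continuous η) (hη1 : ∀ y, 0 ≤ η y ∧ η y ≤ 1) (hz : ∀ y ≤ y₀, η y = 0)
    (ho : ∀ y, ys ≤ y → η y = 1) (hys : ys ≤ lev a₀ (t₁ / 2) - 1) {O : Set (ℝ × E3 × ℝ)}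
    (hO : O = {p : ℝ × E3 × ℝ | p.1 ∈ Ioo a 0 \ Z ∧ p.2.2 ∈ Om w (Ioo a 0) A σ θ p.1 p.2.1})
    (hopen : IsOpen O) (h₀ : t₀ < 0) (h₁ : t₁ < 0) (hu : t₀ ≤ u) (huv : u < v) (hv : v ≤ t₀ / 2)
    (hR : -t₀ * (2 * R ^ 2 + 8) < 1) (hB : 0 ≤ B)
    (hB' : ∀ t, deriv (chi u v t₁) t ≤ B ∧ (v < t → deriv (chi u v t₁) t ≤ 0))
    (hy₀' : ∀ p ∈ Icc u v ×ˢ closedBall (0 : E3) 2, w p.1 p.2 = 0 →
      ∀ y ∈ Om w (Ioo a 0) A σ θ p.1 p.2, y₀' < y) :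
    ∃ F : Finset P218UD.Lat, (∀ Q ∈ F, ‖zQ Q‖ < 3 ∧
      ∀ t ∈ Ioo (-1 / 4 : ℝ) 0, ContDiffAt ℝ ∞ (bbar w (zQ Q) (rQ Q)) t) ∧
      ∫⁻ p, ENNReal.ofReal ({p : ℝ × E3 | p.1 ∈ Ioo (t₀ / 2) t₁ ∧ p.2 ∈ NN O R a₀ p.1}.indicator
        (fun p => Real.exp (-R ^ 2 / 4) / 2048 * (1 / p.1 ^ 2)) p) ∂(stm w (Ioo a 0))
      ≤ ∫⁻ p, ENNReal.ofReal ((Icc t₀ (t₁ / 2) ×ˢ (univ : Set E3)).indicator
        (fun p => Phi p.1 p.2 * (B * |a₀ - y₀'| + 72 * C₀) + (Phi p.1 p.2 *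
          ∑ Q ∈ act w (δ / 2) Λ a₀ F p.1 p.2,
            hQ w e (1 + 2 * C₀) (C₁ * (CXi / δ)) (20 * C₁) Q p.1 p.2
          + ∑ Q ∈ act w (δ / 2) Λ a₀ (F.filter fun Q => (Q.1 : ℝ) < ys + 4) p.1 p.2,
            2 * C₀ * Real.exp 8 / -t₁ / rQ Q ^ 2)) p) ∂(stm w (Ioo a 0)) + ENNReal.ofReal 1 := by
  have hk₂ : 0 ≤ C₁ * (CXi / δ) := mul_nonneg hC₁ (div_nonneg CXi_pos.le hδ.le)
  have h₀' : -1 / 4 < t₀ := by nlinarith [sq_nonneg R]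
  have hJ : Icc t₀ (t₁ / 2) ⊆ Ioo (-1 / 4) 0 := fun t ht =>
    ⟨by linarith [ht.1], by linarith [ht.2]⟩
  have hJ' : Icc u (t₁ / 2) ⊆ Ioo (-1 / 4) 0 := (Icc_subset_Icc_left hu).trans hJ
  have hJI : Ioo (-1 / 4 : ℝ) 0 ⊆ Ioo a 0 := Ioo_subset_Ioo_left (by linarith)
  have hlev : ∀ t, t ≤ t₁ / 2 → ys ≤ lev a₀ t - 1 := fun t ht => by
    linarith [lev_mono a₀ ht (by linarith)]
  obtain ⟨F, hF'⟩ : ∃ F : Finset P218UD.Lat,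
      ∀ Q, Q ∈ F ↔ y₀ ≤ Q.1 ∧ (Q.1 : ℝ) ≤ -2 ∧ zQ Q ∈ ball (0 : E3) 3 :=
    ⟨(finite_lat y₀ (-2) 0 3).toFinset, fun Q => Finite.mem_toFinset _⟩
  have hr : ∀ Q : P218UD.Lat, (Q.1 : ℝ) ≤ -2 → rQ Q ≤ 1 := fun Q hQ' =>
    Real.exp_le_one_iff.2 (by linarith)
  have hI : ∀ Q ∈ F, ∀ t ∈ Ioo (-1 / 4 : ℝ) 0, Icc (t - rQ Q ^ 2) t ⊆ Ioo a 0 :=
    fun Q hQ' t ht s hs => ⟨by
      linarith [hs.1, ht.1, pow_le_one₀ (n := 2) (rQ_pos Q).le (hr Q ((hF' Q).1 hQ').2.1)],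
      hs.2.trans_lt ht.2⟩
  have hs : ∀ Q ∈ F, ∀ t ∈ Ioo (-1 / 4 : ℝ) 0, ContDiffAt ℝ ∞ (bbar w (zQ Q) (rQ Q)) t :=
    fun Q hQ' t ht => hc.smooth w _ Z A hw _ _ _ (rQ_pos Q) (hI Q hQ' t ht)
  refine ⟨F, fun Q hQ' => ⟨mem_ball_zero_iff.1 ((hF' Q).1 hQ').2.2, hs Q hQ'⟩, ?_⟩
  obtain ⟨γ, hγc, hγ⟩ := hγ F (bQ w δ) (Ioo (-1 / 4) 0) isOpen_Ioo
    (fun Q hQ' t ht => (contDiffAt_bQ (hs Q hQ' t ht)).contDiffWithinAt) fun Q _ t _ => bQ_mem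
  have hγa : ∀ t ∈ Ioo (-1 / 4 : ℝ) 0, ∀ x y,
      ContDiffAt ℝ 2 (fun p : ℝ × E3 × ℝ => γ p.1 p.2.1 p.2.2) (t, x, y) := fun t ht x y =>
    hγc.contDiffAt ((isOpen_Ioo.prod isOpen_univ).mem_nhds ⟨ht, trivial⟩)
  set F₂ := F.filter fun Q => (Q.1 : ℝ) < ys + 4 with hF₂
  obtain ⟨q, hq, ⟨B₁, hqB⟩, hq'⟩ := exists_q (δ := δ / 2) (Λ := Λ) (a₀ := a₀) he he0 isOpen_Ioo hs
  obtain ⟨q₂, hq₂, ⟨B₂, hq₂B⟩, hq₂'⟩ := exists_q (δ := δ / 2) (Λ := Λ) (a₀ := a₀) (F := F₂)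
    (e := fun _ => Real.exp 8) measurable_const (fun _ => ⟨(Real.exp_pos 8).le, le_rfl⟩) isOpen_Ioo
    fun Q hQ' => hs Q (Finset.mem_filter.1 hQ').1
  have hqq : ∃ B, ∀ p, 0 ≤ q p + q₂ p ∧ q p + q₂ p ≤ B :=
    ⟨B₁ + B₂, fun p => ⟨add_nonneg (hqB p).1 (hq₂B p).1, add_le_add (hqB p).2 (hq₂B p).2⟩⟩
  have hE : ∀ (t : ℝ) (x : E3), 0 ≤ ∑ Q ∈ act w (δ / 2) Λ a₀ F t x,
      e ((rQ Q)⁻¹ • (x - zQ Q)) / rQ Q ^ 2 := fun t x =>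
    Finset.sum_nonneg fun Q _ => div_nonneg (he0 _).1 (sq_nonneg _)
  have hE₂ : ∀ (t : ℝ) (x : E3), 0 ≤ ∑ Q ∈ act w (δ / 2) Λ a₀ F₂ t x, Real.exp 8 / rQ Q ^ 2 :=
    fun t x => Finset.sum_nonneg fun Q _ => by positivity
  have hsup : tsupport (fun p : ℝ × E3 => ps u v t₁ p.1 p.2) ⊆ Ioo (-1 / 4) 0 ×ˢ univ :=
    (tsupport_ps huv h₁).trans fun p hp => ⟨hJ' hp.1, trivial⟩
  obtain ⟨i1, i2, i3⟩ := hineq (Ioo (-1 / 4) 0) (gam γ a₀) (fun p => q p + q₂ p) a₀ isOpen_Ioo hJI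
    hsup (fun p hp => (contDiffAt_gam hp.1.2 (hγa _ hp.1 _ _)).contDiffWithinAt)
    (fun t ht x y => ⟨gam_nonneg ((hγ t ht x).1 y).1, gam_le_one ht.1.le ((hγ t ht x).1 y).2⟩)
    (fun t ht x y hy => gam_eq_zero ((lev_le a₀ (by linarith [ht.1]) ht.2).trans hy))
    (hq.add hq₂) hqq fun p hp hp0 y hy => by
      have hpK := tsupport_ps huv h₁ hp
      have ht := hJ' hpK.1
      obtain ⟨g1, -, g3, g4⟩ := hγ _ ht p.2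
      have g5 := (g4 (lev a₀ p.1) _ act_subset (mem_act hδ)).1
      have g6 := (Real.exp_pos (2 * y)).le
      refine ⟨fun h => ?_, ?_, ?_, fun h => ?_⟩
      · obtain ⟨c1, c2⟩ := closure_gam h
        refine quiet_of_closure (γ₀ := γ) (F := F) hδ (fun t ht x => (hγ t ht x).2.1)
          (fun t _ x y h => by rw [gam, h, zero_mul]) (fun Q q1 q2 q3 => ?_) h
        have q4 : (Q.1 : ℝ) ≤ -2 := by linarith
        have q5 : Q ∈ F := (hF' Q).2 ⟨by linarith, q4, mem_ball_zero_iff.2 (by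
          have h5 := norm_sub_norm_le (zQ Q) p.2
          have h6 : ‖p.2‖ < 2 := lt_of_pow_lt_pow_left₀ 2 zero_le_two (by linarith)
          rw [norm_sub_rev] at h5
          linarith [hr Q q4])⟩
        exact ⟨q5, hI Q q5 _ ht, (hs Q q5 _ ht).continuousAt⟩
      · exact (gradient_gam_le ht.1.le (hγa _ ht _ _) (g1 y).1 (g1 y).2 (hE _ _)
          fun h => (g5 y h).1).trans (mul_le_mul_of_nonneg_left
            ((hq' p ht).ge.trans (le_add_of_nonneg_right (hq₂B p).1)) (gam_nonneg (g1 y).1))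
      · exact (deriv_gam_le ht.1.le (hγa _ ht _ _) (g1 y).1 (hE _ _) fun h => (g5 y h).2).trans
          (mul_le_mul_of_nonneg_left
            ((hq' p ht).ge.trans (le_add_of_nonneg_right (hq₂B p).1)) g6)
      · have h7 := hlev _ hpK.1.2
        refine (deriv_gam_low hδ ht.1.le (hγa _ ht _ _) g1 (hE _ _) hc1 h (by linarith)
          (g5 y (by linarith)).2 (g3 y)).trans (mul_le_mul_of_nonneg_left ?_ g6)
        linarith [hq' p ht, hq₂' p ht, hE p.1 p.2, hE₂ p.1 p.2]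
  set N : Set (ℝ × E3) := {p | p.1 ∈ Ioo (t₀ / 2) t₁ ∧ p.2 ∈ NN O R a₀ p.1} with hN
  have hL0 : ∀ t < 0, ∀ x, 0 ≤ ∑ Q ∈ act w (δ / 2) Λ a₀ F t x,
      hQ w e (1 + 2 * C₀) (C₁ * (CXi / δ)) (20 * C₁) Q t x := fun t ht x =>
    Finset.sum_nonneg fun Q _ =>
      hQ_nonneg ht (fun x => (he0 x).1) (by positivity) hk₂ (by positivity) Q
  have hL₂ : ∀ (t : ℝ) (x : E3), ∑ Q ∈ act w (δ / 2) Λ a₀ F₂ t x,
      2 * C₀ * Real.exp 8 / -t₁ / rQ Q ^ 2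
      = 1 / -t₁ * (C₀ * (2 * ∑ Q ∈ act w (δ / 2) Λ a₀ F₂ t x, Real.exp 8 / rQ Q ^ 2)) :=
    fun t x => by
      simp only [Finset.mul_sum]
      exact Finset.sum_congr rfl fun Q _ => by ring
  have h₁' : 0 < 1 / -t₁ := one_div_pos.2 (neg_pos.2 h₁)
  refine lint_le_add ((i1.add (i2.add (integrable_mul_q hC hw (contDiff_ps h₁).continuous
    (cpt_ps huv h₁) (hsup.trans (prod_mono_left hJI)) (hq.add hq₂) hqq C₀))).congr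
    (Eventually.of_forall fun p => by simp only [Pi.add_apply, mul_add])) zero_le_one i3 ?_
  filter_upwards [hC.stm_ae w _ Z A hw] with p hp
  have hg : p ∈ N → p.1 ∈ Icc (t₀ / 2) t₁ ∧ ‖p.2‖ ^ 2 ≤ 1 / 2 ∧ Real.exp (-R ^ 2 / 4) / 2048 *
      (1 / p.1 ^ 2) ≤ Phi p.1 p.2 * (ek p.1 p.2 / (2 * -p.1)) := fun h =>
    ⟨Ioo_subset_Icc_self h.1, gain_le hp.1.1.2 (by nlinarith [h.1.1, sq_nonneg R]) h.2.1⟩
  refine (fun hl0 => ⟨indicator_nonneg (fun p _ => by positivity) p, hl0, ?_⟩)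
    (indicator_nonneg (fun p hp => add_nonneg (mul_nonneg (Phi_pos (hJ hp.1).2 _).le
      (by positivity)) (add_nonneg (mul_nonneg (Phi_pos (hJ hp.1).2 _).le (hL0 _ (hJ hp.1).2 _))
        (hL₂ _ _ ▸ mul_nonneg h₁'.le (mul_nonneg hC₀ (mul_nonneg zero_le_two (hE₂ _ _)))))) p)
  by_cases hpK : p ∈ Icc u (t₁ / 2) ×ˢ closedBall (0 : E3) 2
  swap
  · rw [adj_ps_zero w huv h₁ hpK, ps_eq_zero huv h₁ hpK, indicator_of_notMem]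
    · linarith
    · intro h
      obtain ⟨g1, g2, -⟩ := hg h
      exact hpK ⟨⟨by linarith [g1.1], by linarith [g1.2]⟩, mem_closedBall_zero_iff.2
        (le_of_lt (lt_of_pow_lt_pow_left₀ 2 zero_le_two (by linarith)))⟩
  have ht := hJ' hpK.1
  have hn := ((hw.slice hp.1.1).eik _ hp.2).self_of_nhds
  have hOm := meas_Om (hO ▸ hopen) hp.1 p.2
  obtain ⟨g1, -, g3, g4⟩ := hγ _ ht p.2
  obtain ⟨-, g5, g6⟩ := g4 (lev a₀ p.1) _ act_subset (mem_act hδ)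
  obtain ⟨b1, b2⟩ := pw_bracket (C₀ := C₀) hδ ht.1.le ht.2 hn (fun x => (he0 x).1) hC₁
    (fun Q hQ' => hs Q hQ' _ ht) (hγa _ ht _) (fun y => (g1 y).1) g3 (g5 _ hn) g6 hOm hη hη1 hz
    (fun y hy => ho y ((hlev _ hpK.1.2).trans hy)) (fun y hy y' h => Om_up hy h) rfl rfl
  rw [← hq' p ht] at b1 b2
  have a1 : GG w (Ioo a 0) A σ θ (fun t x y => η y * gam γ a₀ t x y) p.1 p.2
      * adj w (ps u v t₁) p.1 p.2 ≤ _ :=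
    gg_adj ht hn g1 hη1 hOm (fun h' => hy₀' p ⟨⟨hpK.1.1, h'⟩, hpK.2⟩ hp.2) hB (hB' _)
  have hP := (Phi_pos ht.2 p.2).le
  have a2 := ps_nonneg (u := u) (v := v) h₁ p.1 p.2
  have a3 := ps_le (u := u) (v := v) (t₁ := t₁) ht.2 p.2
  have a4 : ps u v t₁ p.1 p.2 * (C₀ * q₂ p) ≤ Phi p.1 p.2 * (36 * C₀) + 1 / -t₁ *
      (C₀ * (2 * ∑ Q ∈ act w (δ / 2) Λ a₀ F₂ p.1 p.2, Real.exp 8 / rQ Q ^ 2)) := by
    rw [hq₂' p ht]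
    linarith [mul_le_mul_of_nonneg_right (a3.trans (Phi_le_inv h₁ hpK.1.2 p.2))
      (mul_nonneg hC₀ (mul_nonneg zero_le_two (hE₂ p.1 p.2))),
      mul_le_mul_of_nonneg_right a3 (by positivity : 0 ≤ 36 * C₀)]
  rw [indicator_of_mem (show p ∈ Icc t₀ (t₁ / 2) ×ˢ (univ : Set E3) from
    ⟨⟨hu.trans hpK.1.1, hpK.1.2⟩, trivial⟩), hL₂]
  by_cases hpN : p ∈ N
  · obtain ⟨n1, n2, n3⟩ := hg hpN
    have n4 := hpN.2.2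
    rw [hO] at n4
    rw [ps_eq huv h₁ ⟨hv.trans n1.1, n1.2⟩ (by linarith)] at a4 ⊢
    rw [indicator_of_mem hpN]
    linarith [mul_le_mul_of_nonneg_left (b2 n4.2) hP]
  · rw [indicator_of_notMem hpN]
    linarith [mul_le_mul_of_nonneg_left b1 a2, mul_le_mul_of_nonneg_right a3
      (add_nonneg (by positivity : 0 ≤ 36 * C₀) (hL0 _ ht.2 p.2))]

end Vale.Agent.P218WM
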